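import Vale.Agent.P193.Fp.Conj

/-!
# P193: prefix codes and their doubling elements

A code assigns to every word the clopen of points over which the word is an inner node. Its
element carries `p b s` to `b p s` on every leaf `p`.
-/

namespace Vale.Agent.P193.Fp

open TopologicalSpace

/-- All words of length `d`. -/
def words : ℕ → List (List Bool)
  | 0 => [[]]
  | d + 1 => (words d).flatMap fun p => [p ++ [false], p ++ [true]]

theorem mem_words {d : ℕ} {p : List Bool} : p ∈ words d ↔ p.length = d := by
  induction d generalizing p with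
  | zero => simp [words]
  | succ d ih =>
    simp only [words, List.mem_flatMap, List.mem_cons, List.not_mem_nil, or_false]
    constructor
    · rintro ⟨q, hq, rfl | rfl⟩ <;> simp [ih.1 hq]
    · intro h
      obtain ⟨q, b, rfl⟩ := List.eq_nil_or_concat' p |>.resolve_left (by rintro rfl; simp at h)
      refine ⟨q, ih.2 (by simp at h; omega), ?_⟩
      cases b <;> simp

theorem nodup_words : ∀ d, (words d).Nodup
  | 0 => by simp [words]
  | d + 1 => by
    refine List.nodup_flatMap.2 ⟨fun p _ => by simp, (nodup_words d).imp ?_⟩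
    intro p q hpq
    simp only [Function.onFun, List.Disjoint, List.mem_cons, List.not_mem_nil, or_false]
    rintro a (rfl | rfl) (h | h) <;> exact hpq (List.append_inj_left' h rfl)

theorem prefix_antisymm {p q : List Bool} (h : p <+: q) (h' : q <+: p) : p = q :=
  h.eq_of_length_le h'.length_le

theorem incomp_of_length {p q : List Bool} (h : p.length = q.length) (hne : p ≠ q) :
    ¬p <+: q ∧ ¬q <+: p :=
  ⟨fun hp => hne (hp.eq_of_length h), fun hq => hne (hq.eq_of_length h.symm).symm⟩

theorem prod_apply {G X : Type*} [Group G] (f : G →* Equiv.Perm X) :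
    ∀ (l : List G) (z : X), (∀ x ∈ l, f x z = z) → f l.prod z = z
  | [], z, _ => by simp
  | a :: l, z, h => by
    rw [List.prod_cons, map_mul, Equiv.Perm.mul_apply,
      prod_apply f l z fun x hx => h x (List.mem_cons_of_mem _ hx), h a List.mem_cons_self]

theorem prod_map_apply {G X α : Type*} [Group G] (f : G →* Equiv.Perm X) (F : α → G) (a : α)
    (z : X) : ∀ (l : List α), l.Nodup → a ∈ l →
    (∀ x ∈ l, x ≠ a → f (F x) z = z ∧ f (F x) (f (F a) z) = f (F a) z) →
    f (l.map F).prod z = f (F a) z
  | [], _, h, _ => by simp at h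
  | x :: l, hn, ha, h => by
    rw [List.nodup_cons] at hn
    rw [List.map_cons, List.prod_cons, map_mul, Equiv.Perm.mul_apply]
    by_cases hx : x = a
    · subst hx
      rw [prod_apply f _ z ?_]
      intro g hg
      obtain ⟨y, hy, rfl⟩ := List.mem_map.1 hg
      exact (h y (List.mem_cons_of_mem _ hy) fun e => hn.1 (e ▸ hy)).1
    · have ha' : a ∈ l := (List.mem_cons.1 ha).resolve_left (Ne.symm hx)
      rw [prod_map_apply f F a z l hn.2 ha' fun y hy => h y (List.mem_cons_of_mem _ hy)]
      exact (h x List.mem_cons_self hx).2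

theorem prod_map_update {G α : Type*} [Group G] [DecidableEq α] (F : α → G) (a : α) (u : G) :
    ∀ (l : List α), l.Nodup → a ∈ l → (∀ x ∈ l, x ≠ a → Commute u (F x)) →
      (l.map (Function.update F a (F a * u))).prod = (l.map F).prod * u
  | [], _, h, _ => by simp at h
  | x :: l, hn, ha, h => by
    rw [List.nodup_cons] at hn
    rw [List.map_cons, List.prod_cons, List.map_cons, List.prod_cons]
    by_cases hx : x = a
    · subst hx
      rw [Function.update_self]
      have e : l.map (Function.update F x (F x * u)) = l.map F :=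
        List.map_congr_left fun y hy => Function.update_of_ne (fun e => hn.1 (by rw [← e]; exact hy)) _ _
      rw [e, mul_assoc, mul_assoc]
      congr 1
      refine Commute.eq (Commute.list_prod_right _ _ fun g hg => ?_)
      obtain ⟨y, hy, rfl⟩ := List.mem_map.1 hg
      exact h y (List.mem_cons_of_mem _ hy) fun e => hn.1 (e ▸ hy)
    · have ha' : a ∈ l := (List.mem_cons.1 ha).resolve_left (Ne.symm hx)
      rw [Function.update_of_ne hx, prod_map_update F a u l hn.2 ha'
        fun y hy => h y (List.mem_cons_of_mem _ hy), mul_assoc]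

variable {Y Q : Type*} [TopologicalSpace Y]

/-- A code: at each word the clopen over which it is an inner node; bounded by `size`. -/
structure Code (Y : Type*) [TopologicalSpace Y] where
  node : List Bool → Clopens Y
  mono : ∀ p b, node (p ++ [b]) ≤ node p

namespace Code

/-- Inner nodes are shorter than `D`. -/
def Bounded (I : Code Y) (D : ℕ) : Prop := ∀ p : List Bool, D ≤ p.length → I.node p = ⊥

/-- `p` is a leaf of `I` over `y`. -/
def Leaf (I : Code Y) (y : Y) (p : List Bool) : Prop :=
  (∀ q b, p = q ++ [b] → y ∈ I.node q) ∧ y ∉ I.node p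

theorem mono' (I : Code Y) (p r : List Bool) : I.node (p ++ r) ≤ I.node p := by
  induction r using List.reverseRecOn with
  | nil => simp
  | append_singleton r b ih => rw [← List.append_assoc]; exact (I.mono _ _).trans ih

theorem mem_of_prefix (I : Code Y) {y : Y} {p q : List Bool} (h : p <+: q) (hy : y ∈ I.node q) :
    y ∈ I.node p := by
  obtain ⟨r, rfl⟩ := h
  exact I.mono' p r hy

theorem Leaf.mem_of_lt {I : Code Y} {y : Y} {p q : List Bool} (h : I.Leaf y p) (hq : q <+: p)
    (hne : q ≠ p) : y ∈ I.node q := by
  obtain ⟨r, rfl⟩ := hq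
  rcases List.eq_nil_or_concat' r with rfl | ⟨r', b, rfl⟩
  · simp at hne
  · exact I.mem_of_prefix ⟨r', rfl⟩ (h.1 (q ++ r') b (by simp))

theorem Leaf.not_mem_of_le {I : Code Y} {y : Y} {p q : List Bool} (h : I.Leaf y p) (hq : p <+: q) :
    y ∉ I.node q :=
  fun hy => h.2 (I.mem_of_prefix hq hy)

theorem Leaf.eq_of_prefix {I : Code Y} {y : Y} {p q : List Bool} (h : I.Leaf y p)
    (h' : I.Leaf y q) (hq : p <+: q) : p = q := by
  by_contra hne
  exact h.2 (h'.mem_of_lt hq hne)

theorem Leaf.eq_of_app {I : Code Y} {y : Y} {p q : List Bool} (h : I.Leaf y p) (h' : I.Leaf y q)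
    {s t : ℕ → Bool} (e : app p s = app q t) : p = q := by
  rcases Nat.le_total p.length q.length with hl | hl
  · obtain ⟨r, hr, -⟩ := app_eq_prefix hl e
    exact h.eq_of_prefix h' ⟨r, hr.symm⟩
  · obtain ⟨r, hr, -⟩ := app_eq_prefix hl e.symm
    exact (h'.eq_of_prefix h ⟨r, hr.symm⟩).symm

theorem exists_leaf {I : Code Y} {D : ℕ} (hD : I.Bounded D) (y : Y) (s : ℕ → Bool) :
    ∃ p t, I.Leaf y p ∧ p.length ≤ D ∧ s = app p t := by
  classical
  have hex : ∃ n, y ∉ I.node (stake n s) := ⟨D, by rw [hD _ (by simp)]; exact id⟩
  refine ⟨stake (Nat.find hex) s, sdrop (Nat.find hex) s, ⟨?_, Nat.find_spec hex⟩, ?_,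
    (app_stake _ s).symm⟩
  · intro q b e
    have hl : q.length + 1 = Nat.find hex := by simpa using (congrArg List.length e).symm
    have hq : q = stake q.length s := by
      have h1 : app q (app [b] (sdrop (Nat.find hex) s)) = s := by
        rw [← app_append, ← e, app_stake]
      have h2 := stake_app q (app [b] (sdrop (Nat.find hex) s))
      rw [h1] at h2
      exact h2.symm
    rw [hq]
    exact Classical.not_not.1 (Nat.find_min hex (by omega))
  · rw [length_stake]
    exact Nat.find_min' hex (by rw [hD _ (by simp)]; exact id)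

/-- Codes with the same leaves are equal. -/
theorem node_eq_of_leaf {I J : Code Y} {D : ℕ} (hI : I.Bounded D)
    (h : ∀ y p, I.Leaf y p → J.Leaf y p) : I.node = J.node := by
  funext r
  apply SetLike.ext
  intro y
  obtain ⟨p, t, hp, -, e⟩ := exists_leaf hI y (app r fun _ => false)
  have hp' := h y p hp
  rcases Nat.lt_or_ge r.length p.length with hl | hl
  · obtain ⟨w, hw, -⟩ := app_eq_prefix hl.le e
    have hne : r ≠ p := fun e => by rw [e] at hl; omega
    exact iff_of_true (hp.mem_of_lt ⟨w, hw.symm⟩ hne) (hp'.mem_of_lt ⟨w, hw.symm⟩ hne)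
  · obtain ⟨w, hw, -⟩ := app_eq_prefix hl e.symm
    exact iff_of_false (hp.not_mem_of_le ⟨w, hw.symm⟩) (hp'.not_mem_of_le ⟨w, hw.symm⟩)

/-- Add the node `p` over `V`, which must be made of leaves. -/
def add (I : Code Y) (p : List Bool) (V : Clopens Y)
    (h : ∀ q b, p = q ++ [b] → V ≤ I.node q) : Code Y where
  node r := if r = p then I.node r ⊔ V else I.node r
  mono r b := by
    split_ifs with h1 h2 h2
    · subst h2
      simp at h1
    · exact sup_le (I.mono r b) (h r b h1.symm)
    · exact (I.mono r b).trans le_sup_left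
    · exact I.mono r b

theorem Bounded.add {I : Code Y} {D : ℕ} (hD : I.Bounded D) {p : List Bool} {V : Clopens Y}
    {h : ∀ q b, p = q ++ [b] → V ≤ I.node q} (hp : p.length < D) : (I.add p V h).Bounded D := by
  intro r hr
  have hne : r ≠ p := fun e => by rw [e] at hr; omega
  simp [Code.add, hne, hD r hr]

end Code

variable [Group Q] [MulAction Q Y] [ContinuousConstSMul Q Y]

/-- The middle exchange `p01 ↔ p10` over `U`. -/
def midBox (U : Clopens Y) (p : List Bool) : Box Y Q :=
  ⟨U, 1, p ++ [false, true], p ++ [true, false]⟩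

theorem midBox_valid (U : Clopens Y) (p : List Bool) : (midBox (Q := Q) U p).Valid := by
  simp only [Box.Valid, Box.dom, Box.cod, midBox, smulC_one]
  exact disjoint_cyl_word (by simp [List.prefix_append_right_inj])
    (by simp [List.prefix_append_right_inj]) _ _

theorem midBox_supp (U : Clopens Y) (p : List Bool) :
    (midBox (Q := Q) U p).supp ⊆ cyl (U : Set Y) p := by
  simp only [Box.supp, Box.dom, Box.cod, midBox, smulC_one]
  exact Set.union_subset (cyl_append_subset _ _ _) (cyl_append_subset _ _ _)

namespace BoxSystem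

variable {G : Type*} [Group G] (S : BoxSystem Y Q G)

/-- The element of the inner nodes of length `d`. -/
def lay (I : Code Y) (d : ℕ) : G := ((words d).map fun p => S.el (midBox (I.node p) p)).prod

/-- The doubling element of a code. -/
def gam (I : Code Y) : ℕ → G
  | 0 => 1
  | d + 1 => gam I d * S.lay I d

theorem lay_fix (I : Code Y) (d : ℕ) {z : Pt Y}
    (h : ∀ r, r.length = d → z ∉ cyl (I.node r : Set Y) r) : S.toPerm (S.lay I d) z = z := by
  refine prod_apply S.toPerm _ z fun x hx => ?_
  obtain ⟨r, hr, rfl⟩ := List.mem_map.1 hx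
  rw [S.toPerm_el _ (midBox_valid _ _)]
  exact Box.move_out fun hz => h r (mem_words.1 hr) (midBox_supp _ _ hz)

theorem lay_node (I : Code Y) {y : Y} {p : List Bool} (hy : y ∈ I.node p) (b c : Bool)
    (s : ℕ → Bool) :
    S.toPerm (S.lay I p.length) (y, app (p ++ [c, b]) s) = (y, app (p ++ [b, c]) s) := by
  classical
  have key : S.toPerm (S.el (midBox (I.node p) p)) (y, app (p ++ [c, b]) s) =
      (y, app (p ++ [b, c]) s) := by
    rw [S.toPerm_el _ (midBox_valid _ _)]
    cases b <;> cases c
    · exact Box.move_out (fun hz => by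
        simp only [Box.supp, Box.dom, Box.cod, midBox, smulC_one] at hz
        rcases hz with ⟨-, t, e⟩ | ⟨-, t, e⟩ <;>
          · have := (app_inj_of_length (by simp) e).1
            simp at this)
    · have := Box.move_cod (midBox_valid (Q := Q) (I.node p) p) (y := y) (by simpa [midBox] using hy) s
      simpa [midBox] using this
    · have := (midBox (Q := Q) (I.node p) p).move_dom hy s
      simpa [midBox] using this
    · exact Box.move_out (fun hz => by
        simp only [Box.supp, Box.dom, Box.cod, midBox, smulC_one] at hz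
        rcases hz with ⟨-, t, e⟩ | ⟨-, t, e⟩ <;>
          · have := (app_inj_of_length (by simp) e).1
            simp at this)
  rw [lay, prod_map_apply S.toPerm _ p _ _ (nodup_words _) (mem_words.2 rfl), key]
  intro r hr hne
  have out : ∀ w : ℕ → Bool, S.toPerm (S.el (midBox (I.node r) r)) (y, app p w) = (y, app p w) := by
    intro w
    rw [S.toPerm_el _ (midBox_valid _ _)]
    refine Box.move_out fun hz => ?_
    obtain ⟨-, t, e⟩ := midBox_supp _ _ hz
    exact hne (app_inj_of_length (mem_words.1 hr).symm e).1.symm
  refine ⟨?_, ?_⟩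
  · rw [app_append]; exact out _
  · rw [key, app_append]; exact out _

theorem gam_inner (I : Code Y) : ∀ (d : ℕ) (y : Y) (p : List Bool), p.length = d →
    (∀ q b, p = q ++ [b] → y ∈ I.node q) → ∀ b s,
      S.toPerm (S.gam I d) (y, app (p ++ [b]) s) = (y, app (b :: p) s) := by
  intro d
  induction d with
  | zero =>
    intro y p hp _ b s
    obtain rfl : p = [] := List.eq_nil_of_length_eq_zero hp
    simp [gam]
  | succ d ih =>
    intro y p hp hy b s
    obtain ⟨q, c, rfl⟩ := (List.eq_nil_or_concat' p).resolve_left (by rintro rfl; simp at hp)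
    have hq : q.length = d := by simpa using hp
    rw [gam, map_mul, Equiv.Perm.mul_apply, List.append_assoc, List.singleton_append, ← hq,
      S.lay_node I (hy q c rfl) b c s, hq]
    rw [show q ++ [b, c] = (q ++ [b]) ++ [c] by simp, app_append,
      ih y q hq (fun r b' e => I.mem_of_prefix ⟨[b'], e.symm⟩ (hy q c rfl)) b (app [c] s),
      ← app_append]
    simp

/-- On a leaf `p` the doubling element carries `p b s` to `b p s`. -/
theorem gam_leaf (I : Code Y) {y : Y} {p : List Bool} (hp : I.Leaf y p) {D : ℕ} (hD : p.length ≤ D)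
    (b : Bool) (s : ℕ → Bool) :
    S.toPerm (S.gam I D) (y, app (p ++ [b]) s) = (y, app (b :: p) s) := by
  obtain ⟨k, rfl⟩ := Nat.exists_eq_add_of_le hD
  induction k with
  | zero => exact S.gam_inner I _ y p rfl hp.1 b s
  | succ k ih =>
    rw [← Nat.add_assoc, gam, map_mul, Equiv.Perm.mul_apply, S.lay_fix I, ih (Nat.le_add_right _ _)]
    intro r hr hz
    obtain ⟨hy, t, e⟩ := hz
    simp only at hy e
    rw [app_append] at e
    obtain ⟨w, hw, -⟩ := app_eq_prefix (p := p) (q := r) (by omega) e
    exact hp.not_mem_of_le ⟨w, hw.symm⟩ hy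

theorem gam_add (I : Code Y) (p : List Bool) (V : Clopens Y)
    (h : ∀ q b, p = q ++ [b] → V ≤ I.node q) (hd : Disjoint (I.node p) V) {D : ℕ}
    (hD : p.length < D) : S.gam (I.add p V h) D = S.gam I D * S.el (midBox V p) := by
  classical
  have hv : ∀ (U : Clopens Y) (r : List Bool),
      Disjoint (cyl (V : Set Y) p) (cyl (U : Set Y) r) →
      Commute (S.el (midBox V p)) (S.el (midBox U r)) := fun U r hd' =>
    S.el_comm _ _ (midBox_valid _ _) (midBox_valid _ _)
      (Set.disjoint_of_subset (midBox_supp _ _) (midBox_supp _ _) hd')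
  have same : ∀ d, d ≠ p.length → S.lay (I.add p V h) d = S.lay I d := by
    intro d hne
    refine congrArg List.prod (List.map_congr_left fun r hr => ?_)
    have : r ≠ p := fun e => hne (by rw [← mem_words.1 hr, e])
    simp [Code.add, this]
  have at' : S.lay (I.add p V h) p.length = S.lay I p.length * S.el (midBox V p) := by
    rw [lay, lay, ← prod_map_update (fun r => S.el (midBox (I.node r) r)) p (S.el (midBox V p))
      (words p.length) (nodup_words _) (mem_words.2 rfl)]
    · refine congrArg List.prod (List.map_congr_left fun r _ => ?_)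
      by_cases hr : r = p
      · subst hr
        simp only [Code.add, if_true, Function.update_self]
        exact S.el_sup _ _ _ _ _ hd (midBox_valid _ _)
      · simp [Code.add, hr]
    · intro r hr hne
      have := incomp_of_length (mem_words.1 hr).symm (Ne.symm hne)
      exact hv _ _ (disjoint_cyl_word this.1 this.2 _ _)
  obtain ⟨k, rfl⟩ := Nat.exists_eq_add_of_le (Nat.succ_le_of_lt hD)
  induction k with
  | zero =>
    have below : ∀ d ≤ p.length, S.gam (I.add p V h) d = S.gam I d := by
      intro d hd'
      induction d with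
      | zero => rfl
      | succ d ih => rw [gam, gam, ih (by omega), same d (by omega)]
    rw [Nat.add_zero, gam, gam, below _ le_rfl, at', mul_assoc]
  | succ k ih =>
    rw [← Nat.add_assoc, gam, gam, ih (by omega), same _ (by omega)]
    have c : Commute (S.el (midBox V p)) (S.lay I (p.length.succ + k)) := by
      refine Commute.list_prod_right _ _ fun x hx => ?_
      obtain ⟨r, hr, rfl⟩ := List.mem_map.1 hx
      refine hv _ _ ?_
      by_cases hpr : p <+: r
      · refine disjoint_cyl_base ?_ _ _
        refine Set.disjoint_left.2 fun y hy hy' => ?_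
        exact Set.disjoint_left.1 (show Disjoint (I.node p : Set Y) V from
          Set.disjoint_left.2 fun w h1 h2 => (disjoint_clopens.1 hd w h1) h2)
          (I.mem_of_prefix hpr hy') hy
      · refine disjoint_cyl_word hpr (fun hrp => ?_) _ _
        have := hrp.length_le
        rw [mem_words.1 hr] at this
        omega
    rw [mul_assoc, c.eq, mul_assoc]

end BoxSystem

end Vale.Agent.P193.Fp
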