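import Mathlib

/-!
# P193: box systems

`Y` is a totally disconnected space with an action of a group `Q`. A box is a clopen `U` of `Y`, a
group element `g` and two finite words `p`, `q`; it stands for the exchange
`(y, p s) ↔ (g • y, q s)`, `y ∈ U`, of points of `Y × (ℕ → Bool)`. A box system is a group with an
element for every box, obeying four families of relations of transpositions.
-/

namespace Vale.Agent.P193.Fp

open TopologicalSpace
open scoped Pointwise

/-- Points: the space times the Cantor set of infinite binary words. -/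
abbrev Pt (Y : Type*) : Type _ := Y × (ℕ → Bool)

/-- Put one letter in front of an infinite word. -/
def scons (b : Bool) (s : ℕ → Bool) : ℕ → Bool
  | 0 => b
  | n + 1 => s n

/-- Put a finite word in front of an infinite word. -/
def app : List Bool → (ℕ → Bool) → (ℕ → Bool)
  | [], s => s
  | b :: p, s => scons b (app p s)

/-- Drop the first `n` letters. -/
def sdrop (n : ℕ) (s : ℕ → Bool) : ℕ → Bool := fun k => s (n + k)

variable {Y Q : Type*} [TopologicalSpace Y] [Group Q] [MulAction Q Y] [ContinuousConstSMul Q Y]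

/-- The translate of a clopen. -/
def smulC (g : Q) (U : Clopens Y) : Clopens Y :=
  ⟨(fun y => g⁻¹ • y) ⁻¹' (U : Set Y), U.isClopen.preimage (continuous_const_smul g⁻¹)⟩

omit [TopologicalSpace Y] in
/-- The set of points lying over `U` and beginning with the word `p`. -/
def cyl (U : Set Y) (p : List Bool) : Set (Pt Y) :=
  {z | z.1 ∈ U ∧ ∃ s, z.2 = app p s}

/-- A box: the exchange `(y, p s) ↔ (g • y, q s)` for `y ∈ U`. -/
structure Box (Y Q : Type*) [TopologicalSpace Y] where
  U : Clopens Y
  g : Q
  p : List Bool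
  q : List Bool

namespace Box

/-- The first side of a box. -/
def dom (b : Box Y Q) : Set (Pt Y) := cyl (b.U : Set Y) b.p

/-- The second side of a box. -/
def cod (b : Box Y Q) : Set (Pt Y) := cyl (smulC b.g b.U : Set Y) b.q

/-- The points moved by a box. -/
def supp (b : Box Y Q) : Set (Pt Y) := b.dom ∪ b.cod

/-- The two sides are disjoint. -/
def Valid (b : Box Y Q) : Prop := Disjoint b.dom b.cod

open Classical in
/-- The exchange named by a box. -/
noncomputable def move (b : Box Y Q) (z : Pt Y) : Pt Y :=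
  if z ∈ b.dom then (b.g • z.1, app b.q (sdrop b.p.length z.2))
  else if z ∈ b.cod then (b.g⁻¹ • z.1, app b.p (sdrop b.q.length z.2))
  else z

/-- Both words prefixed by `c`. -/
def push (c : List Bool) (b : Box Y Q) : Box Y Q := ⟨b.U, b.g, c ++ b.p, c ++ b.q⟩

end Box

/-- An element acting like `g` on a nonempty clopen is `g`. -/
def Effective (Y Q : Type*) [TopologicalSpace Y] [Group Q] [MulAction Q Y] : Prop :=
  ∀ (g : Q) (U : Clopens Y), U ≠ ⊥ → (∀ y ∈ U, g • y = y) → g = 1

/-- A group with an element for each exchange of boxes, generated by them and satisfying: involution,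
symmetry, the two kinds of splitting, disjoint commutation and the triangle. -/
structure BoxSystem (Y Q : Type*) [TopologicalSpace Y] [Group Q] [MulAction Q Y]
    [ContinuousConstSMul Q Y] (G : Type*) [Group G] where
  toPerm : G →* Equiv.Perm (Pt Y)
  el : Box Y Q → G
  toPerm_el : ∀ b, b.Valid → ∀ z, toPerm (el b) z = b.move z
  el_sq : ∀ b, b.Valid → el b * el b = 1
  el_symm : ∀ b, b.Valid → el ⟨smulC b.g b.U, b.g⁻¹, b.q, b.p⟩ = el b
  el_sup : ∀ (U V : Clopens Y) (g : Q) (p q : List Bool), Disjoint U V →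
    Box.Valid (⟨U ⊔ V, g, p, q⟩ : Box Y Q) →
    el ⟨U ⊔ V, g, p, q⟩ = el ⟨U, g, p, q⟩ * el ⟨V, g, p, q⟩
  el_word : ∀ (U : Clopens Y) (g : Q) (p q : List Bool),
    Box.Valid (⟨U, g, p, q⟩ : Box Y Q) →
    el ⟨U, g, p, q⟩ =
      el ⟨U, g, p ++ [false], q ++ [false]⟩ * el ⟨U, g, p ++ [true], q ++ [true]⟩
  el_comm : ∀ b c, b.Valid → c.Valid → Disjoint b.supp c.supp → Commute (el b) (el c)
  el_tri : ∀ (U : Clopens Y) (g h : Q) (p q r : List Bool),
    Disjoint (cyl (U : Set Y) p) (cyl (smulC g U : Set Y) q) →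
    Disjoint (cyl (smulC g U : Set Y) q) (cyl (smulC (h * g) U : Set Y) r) →
    Disjoint (cyl (U : Set Y) p) (cyl (smulC (h * g) U : Set Y) r) →
    el ⟨U, g, p, q⟩ * el ⟨smulC g U, h, q, r⟩ * el ⟨U, g, p, q⟩ = el ⟨U, h * g, p, r⟩
  generated : Subgroup.closure {x | ∃ b, b.Valid ∧ x = el b} = ⊤

end Vale.Agent.P193.Fp
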