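import Vale.Agent.P193.Fp.Codes

/-!
# P193: the action of a box system is faithful

An element acting trivially equals the product of its two compressed copies, and these are equal
central elements, so it is trivial.
-/

namespace Vale.Agent.P193.Fp

open TopologicalSpace

variable {Y Q : Type*} [TopologicalSpace Y] [Group Q] [MulAction Q Y] [ContinuousConstSMul Q Y]
  {G : Type*} [Group G]

omit [TopologicalSpace Y] [ContinuousConstSMul Q Y] in
theorem pr_eq_of_maps {f : Pt Y → Pt Y} {y : Y} {p q q' : List Bool} {g g' : Q}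
    (h : ∀ s, f (y, app p s) = (g • y, app q s))
    (h' : ∀ s, f (y, app p s) = (g' • y, app q' s)) : g • y = g' • y ∧ q = q' :=
  ⟨congrArg Prod.fst ((h fun _ => false).symm.trans (h' fun _ => false)),
    app_ext fun s => congrArg Prod.snd ((h s).symm.trans (h' s))⟩

theorem Box.push_valid {b : Box Y Q} (hb : b.Valid) (c : List Bool) : (b.push c).Valid := by
  refine disjoint_cyl_iff.2 ((disjoint_cyl_iff.1 hb).imp id fun h => ?_)
  simpa [Box.push, List.prefix_append_right_inj] using h

theorem Box.push_supp (b : Box Y Q) (c : List Bool) :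
    (b.push c).supp ⊆ cyl (Set.univ : Set Y) c :=
  Set.union_subset (cyl_subset (Set.subset_univ _) ⟨b.p, rfl⟩)
    (cyl_subset (Set.subset_univ _) ⟨b.q, rfl⟩)

omit [TopologicalSpace Y] in
theorem app_mem_cyl_push {c p : List Bool} {U : Set Y} {y : Y} {s : ℕ → Bool} :
    ((y, app c s) : Pt Y) ∈ cyl U (c ++ p) ↔ ((y, s) : Pt Y) ∈ cyl U p := by
  constructor
  · rintro ⟨hy, t, e⟩
    simp only at e
    rw [app_append] at e
    exact ⟨hy, t, app_inj_right e⟩
  · rintro ⟨hy, t, e⟩
    exact ⟨hy, t, by simp only at e ⊢; rw [app_append, e]⟩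

theorem Box.push_move {b : Box Y Q} (hb : b.Valid) (c : List Bool) (y : Y) (s : ℕ → Bool) :
    (b.push c).move (y, app c s) = ((b.move (y, s)).1, app c (b.move (y, s)).2) := by
  by_cases hd : ((y, s) : Pt Y) ∈ b.dom
  · obtain ⟨hy, t, e⟩ := hd
    simp only at e
    subst e
    rw [b.move_dom hy t, ← app_append]
    exact ((b.push c).move_dom hy t).trans (Prod.ext rfl (app_append c b.q t))
  by_cases hc : ((y, s) : Pt Y) ∈ b.cod
  · obtain ⟨hy, t, e⟩ := hc
    simp only at e
    subst e
    rw [Box.move_cod hb hy t, ← app_append]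
    exact (Box.move_cod (b := b.push c) (b.push_valid hb c) hy t).trans
      (Prod.ext rfl (app_append c b.p t))
  have hout : ((y, s) : Pt Y) ∉ b.supp := fun h => h.elim hd hc
  rw [Box.move_out hout]
  exact Box.move_out fun h => h.elim (fun h => hd (app_mem_cyl_push.1 h))
    (fun h => hc (app_mem_cyl_push.1 h))

namespace BoxSystem

variable (S : BoxSystem Y Q G)

/-- The product of the elements of a word. -/
def val (l : List (Box Y Q)) : G := (l.map S.el).prod

/-- The word compressed into the cone `c`. -/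
def pv (c : List Bool) (l : List (Box Y Q)) : G := S.val (l.map (Box.push c))

theorem pv_apply (c : List Bool) :
    ∀ l : List (Box Y Q), (∀ b ∈ l, b.Valid) → ∀ y s, S.toPerm (S.pv c l) (y, app c s) =
      ((S.toPerm (S.val l) (y, s)).1, app c (S.toPerm (S.val l) (y, s)).2)
  | [], _, y, s => by simp [pv, val]
  | b :: l, hl, y, s => by
    simp only [List.forall_mem_cons] at hl
    simp only [pv, val, List.map_cons, List.prod_cons, map_mul, Equiv.Perm.mul_apply] at *
    rw [show S.toPerm (List.map S.el (List.map (Box.push c) l)).prod (y, app c s) = _ from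
      pv_apply c l hl.2 y s, S.toPerm_el _ (b.push_valid hl.1 c), Box.push_move hl.1,
      ← S.toPerm_el b hl.1]
    rfl

theorem pv_fix (c : List Bool) (l : List (Box Y Q)) (hl : ∀ b ∈ l, b.Valid) (z : Pt Y)
    (hz : z ∉ cyl (Set.univ : Set Y) c) : S.toPerm (S.pv c l) z = z := by
  refine prod_apply S.toPerm _ z fun x hx => ?_
  simp only [List.map_map, List.mem_map, Function.comp_apply] at hx
  obtain ⟨b, hb, rfl⟩ := hx
  rw [S.toPerm_el _ (b.push_valid (hl b hb) c)]
  exact Box.move_out fun h => hz (b.push_supp c h)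

theorem pv_trivial (c : List Bool) (l : List (Box Y Q)) (hl : ∀ b ∈ l, b.Valid)
    (hw : S.toPerm (S.val l) = 1) : S.toPerm (S.pv c l) = 1 := by
  refine Equiv.ext fun z => ?_
  by_cases hz : z ∈ cyl (Set.univ : Set Y) c
  · obtain ⟨y, x⟩ := z
    obtain ⟨-, s, rfl : x = app c s⟩ := hz
    rw [S.pv_apply c l hl, hw]
    rfl
  · exact S.pv_fix c l hl z hz

theorem commute_pv {c d : List Bool} (h1 : ¬c <+: d) (h2 : ¬d <+: c) {b : Box Y Q} (hb : b.Valid)
    (l : List (Box Y Q)) (hl : ∀ b ∈ l, b.Valid) : Commute (S.el (b.push c)) (S.pv d l) := by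
  refine Commute.list_prod_right _ _ fun x hx => ?_
  simp only [List.map_map, List.mem_map, Function.comp_apply] at hx
  obtain ⟨b', hb', rfl⟩ := hx
  exact S.el_comm _ _ (b.push_valid hb c) (b'.push_valid (hl b' hb') d)
    (Set.disjoint_of_subset (b.push_supp c) (b'.push_supp d) (disjoint_cyl_word h1 h2 _ _))

/-- The exchange of two cones. -/
theorem coneBox_valid {c d : List Bool} (h1 : ¬c <+: d) (h2 : ¬d <+: c) :
    Box.Valid (⟨⊤, (1 : Q), c, d⟩ : Box Y Q) :=
  disjoint_cyl_word h1 h2 _ _

theorem pv_eq_pv (hE : Effective Y Q) [CompactSpace Y] {c d : List Bool} (h1 : ¬c <+: d)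
    (h2 : ¬d <+: c) (l : List (Box Y Q)) (hl : ∀ b ∈ l, b.Valid) (hw : S.toPerm (S.val l) = 1) :
    S.pv c l = S.pv d l := by
  set w : Box Y Q := ⟨⊤, 1, c, d⟩ with hwdef
  have hv : w.Valid := coneBox_valid h1 h2
  have conj1 : ∀ b ∈ l, S.el w * S.el (b.push c) * (S.el w)⁻¹ = S.el (b.push d) := by
    intro b hb
    have hm : ∀ (V : Clopens Y) (p : List Bool),
        Maps (S.toPerm (S.el w)) V (c ++ p) (1 : Q) (d ++ p) := fun V p => by
      rw [funext (S.toPerm_el w hv)]
      exact (maps_move w).mono (fun _ _ => trivial) p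
    rw [S.conj hE (S.el w) (b.push c) (b.push_valid (hl b hb) c) 1 1 (d ++ b.p) (d ++ b.q)
      (hm _ _) (hm _ _)]
    congr 1
    simp [Box.image, Box.push]
  have key : ∀ m : List (Box Y Q), (∀ b ∈ m, b ∈ l) →
      S.el w * S.pv c m * (S.el w)⁻¹ = S.pv d m := by
    intro m hm
    induction m with
    | nil => simp [pv, val]
    | cons b m ih =>
      simp only [List.forall_mem_cons] at hm
      simp only [pv, val, List.map_cons, List.prod_cons] at *
      rw [← conj_mul, conj1 b hm.1, ih hm.2]
  have := key l fun b hb => hb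
  rwa [(S.commute_of_toPerm_eq_one hE (S.pv_trivial c l hl hw) (S.el w)).symm.eq,
    mul_inv_cancel_right] at this

/-- The adapted code of one exchange: the inner nodes above its two sides. -/
def baseCode (b : Box Y Q) : Code Y where
  node r :=
    open Classical in
    (if r <+: b.p ∧ r ≠ b.p then b.U else ⊥) ⊔
      (if r <+: b.q ∧ r ≠ b.q then smulC b.g b.U else ⊥)
  mono r c := by
    classical
    have key : ∀ (p : List Bool) (U : Clopens Y),
        (if r ++ [c] <+: p ∧ r ++ [c] ≠ p then U else ⊥) ≤ (if r <+: p ∧ r ≠ p then U else ⊥) := by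
      intro p U
      split_ifs with h h'
      · exact le_rfl
      · exfalso
        refine h' ⟨(List.prefix_append r [c]).trans h.1, fun e => ?_⟩
        have := h.1.length_le
        rw [← e] at this
        simp at this
      all_goals exact bot_le
    exact sup_le_sup (key _ _) (key _ _)

theorem mem_baseCode {b : Box Y Q} {y : Y} {r : List Bool} :
    y ∈ (baseCode b).node r ↔
      (y ∈ b.U ∧ r <+: b.p ∧ r ≠ b.p) ∨ (y ∈ smulC b.g b.U ∧ r <+: b.q ∧ r ≠ b.q) := by
  classical
  show y ∈ ((if _ then b.U else ⊥) ⊔ (if _ then smulC b.g b.U else ⊥) : Clopens Y) ↔ _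
  constructor
  · rintro (h | h) <;> split_ifs at h with h'
    exacts [Or.inl ⟨h, h'⟩, h.elim, Or.inr ⟨h, h'⟩, h.elim]
  · rintro (⟨h, h'⟩ | ⟨h, h'⟩)
    · left; rwa [if_pos h']
    · right; rwa [if_pos h']

/-- `x` carries leaves of `I` to leaves of `J`, shortening by at most `L`. -/
def Adapt (x : G) (I J : Code Y) (L : ℕ) : Prop :=
  ∀ y p, I.Leaf y p → ∃ (g : Q) (q : List Bool),
    (∀ s, S.toPerm x (y, app p s) = (g • y, app q s)) ∧ J.Leaf (g • y) q ∧ p.length ≤ q.length + L

/-- The doubling identity of one exchange. -/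
def Doubles (b : Box Y Q) (I J : Code Y) (D : ℕ) : Prop :=
  S.el (b.push [false]) * S.el (b.push [true]) * S.gam I D = S.gam J D * S.el b

variable {S}

/-- The pieces on which an exchange is affine below its base code. -/
theorem piece {b : Box Y Q} {I : Code Y}
    (hI : ∀ r, (baseCode b).node r ≤ I.node r) {y : Y} {p : List Bool} (hp : I.Leaf y p) :
    (y ∈ b.U ∧ b.p <+: p) ∨ (y ∈ smulC b.g b.U ∧ b.q <+: p) ∨
      (∀ s, ((y, app p s) : Pt Y) ∉ b.supp) := by
  have h1 : ∀ (U : Clopens Y) (a : List Bool),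
      (∀ r, r <+: a → r ≠ a → y ∈ U → y ∈ I.node r) →
      (y ∈ U ∧ a <+: p) ∨ ∀ s, ((y, app p s) : Pt Y) ∉ cyl (U : Set Y) a := by
    intro U a hmem
    by_cases hy : y ∈ U
    · by_cases ha : a <+: p
      · exact Or.inl ⟨hy, ha⟩
      · refine Or.inr fun s hs => ?_
        obtain ⟨-, t, e⟩ := hs
        simp only at e
        rcases Nat.le_total a.length p.length with hl | hl
        · obtain ⟨w, hw, -⟩ := app_eq_prefix hl e.symm
          exact ha ⟨w, hw.symm⟩
        · obtain ⟨w, hw, -⟩ := app_eq_prefix hl e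
          refine hp.2 (hmem p ⟨w, hw.symm⟩ (fun e' => ha ?_) hy)
          rw [e']
    · exact Or.inr fun s hs => hy hs.1
  rcases h1 b.U b.p (fun r h h' hy => hI r (mem_baseCode.2 (Or.inl ⟨hy, h, h'⟩))) with h | h
  · exact Or.inl h
  rcases h1 (smulC b.g b.U) b.q (fun r h h' hy => hI r (mem_baseCode.2 (Or.inr ⟨hy, h, h'⟩)))
    with h' | h'
  · exact Or.inr (Or.inl h')
  · exact Or.inr (Or.inr fun s hs => hs.elim (h s) (h' s))

theorem adapt_base {b : Box Y Q} (hb : b.Valid) :
    S.Adapt (S.el b) (baseCode b) (baseCode b) (b.p.length + b.q.length) := by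
  intro y p hp
  have hd := disjoint_cyl_iff.1 hb
  rcases piece (fun _ => le_rfl) hp with ⟨hy, hpre⟩ | ⟨hy, hpre⟩ | hout
  · -- the leaf is the first side
    have hy' : b.g • y ∈ smulC b.g b.U := smul_mem_smulC hy
    obtain rfl : p = b.p := by
      by_contra hne
      rcases mem_baseCode.1 (hp.mem_of_lt hpre fun e => hne e.symm) with ⟨-, -, h⟩ | ⟨hy2, h, h'⟩
      · exact h rfl
      · rcases hd with hd | hd
        · exact Set.disjoint_left.1 hd hy hy2
        · exact hd.1 h
    refine ⟨b.g, b.q, fun s => ?_, ⟨fun r c e => ?_, fun h => ?_⟩, by omega⟩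
    · rw [S.toPerm_el b hb, b.move_dom hy s]
    · exact mem_baseCode.2 (Or.inr ⟨hy', e ▸ List.prefix_append r [c], fun e' => by
        have := congrArg List.length (e'.trans e); simp at this⟩)
    · rcases mem_baseCode.1 h with ⟨hy2, h', -⟩ | ⟨-, -, h'⟩
      · rcases hd with hd | hd
        · exact Set.disjoint_left.1 hd hy2 hy'
        · exact hd.2 h'
      · exact h' rfl
  · have hy' : b.g⁻¹ • y ∈ b.U := by simpa using hy
    obtain rfl : p = b.q := by
      by_contra hne
      rcases mem_baseCode.1 (hp.mem_of_lt hpre fun e => hne e.symm) with ⟨hy2, h, -⟩ | ⟨-, -, h⟩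
      · rcases hd with hd | hd
        · exact Set.disjoint_left.1 hd hy2 hy
        · exact hd.2 h
      · exact h rfl
    refine ⟨b.g⁻¹, b.p, fun s => ?_, ⟨fun r c e => ?_, fun h => ?_⟩, by omega⟩
    · rw [S.toPerm_el b hb, Box.move_cod hb hy s]
    · exact mem_baseCode.2 (Or.inl ⟨hy', e ▸ List.prefix_append r [c], fun e' => by
        have := congrArg List.length (e'.trans e); simp at this⟩)
    · rcases mem_baseCode.1 h with ⟨-, -, h'⟩ | ⟨hy2, h', -⟩
      · exact h' rfl
      · rcases hd with hd | hd
        · exact Set.disjoint_left.1 hd hy' hy2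
        · exact hd.1 h'
  · refine ⟨1, p, fun s => ?_, by rwa [one_smul], by omega⟩
    rw [S.toPerm_el b hb, Box.move_out (hout s), one_smul]

theorem doubles_base (hE : Effective Y Q) [CompactSpace Y] {b : Box Y Q} (hb : b.Valid) {D : ℕ}
    (hD : b.p.length + b.q.length < D) : S.Doubles b (baseCode b) (baseCode b) D := by
  have hd := disjoint_cyl_iff.1 hb
  have leafP : ∀ y ∈ b.U, (baseCode b).Leaf y b.p := fun y hy =>
    ⟨fun r c e => mem_baseCode.2 (Or.inl ⟨hy, e ▸ List.prefix_append r [c], fun e' => by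
        have := congrArg List.length (e'.trans e); simp at this⟩), fun h => by
      rcases mem_baseCode.1 h with ⟨-, -, h'⟩ | ⟨hy2, h', -⟩
      · exact h' rfl
      · rcases hd with hd | hd
        · exact Set.disjoint_left.1 hd hy hy2
        · exact hd.1 h'⟩
  have leafQ : ∀ y ∈ smulC b.g b.U, (baseCode b).Leaf y b.q := fun y hy =>
    ⟨fun r c e => mem_baseCode.2 (Or.inr ⟨hy, e ▸ List.prefix_append r [c], fun e' => by
        have := congrArg List.length (e'.trans e); simp at this⟩), fun h => by
      rcases mem_baseCode.1 h with ⟨hy2, h', -⟩ | ⟨-, -, h'⟩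
      · rcases hd with hd | hd
        · exact Set.disjoint_left.1 hd hy2 hy
        · exact hd.2 h'
      · exact h' rfl⟩
  set γ := S.gam (baseCode b) D
  have half : ∀ c : Bool, γ * S.el ⟨b.U, b.g, b.p ++ [c], b.q ++ [c]⟩ * γ⁻¹ = S.el (b.push [c]) := by
    intro c
    rw [S.conj hE γ ⟨b.U, b.g, b.p ++ [c], b.q ++ [c]⟩ (hb.sub le_rfl [c]) 1 1 (c :: b.p) (c :: b.q)]
    · congr 1
      simp [Box.image, Box.push]
    · intro y hy s
      rw [one_smul]
      exact S.gam_leaf _ (leafP y hy) (by omega) c s
    · intro y hy s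
      rw [one_smul]
      exact S.gam_leaf _ (leafQ y hy) (by omega) c s
  show S.el (b.push [false]) * S.el (b.push [true]) * γ = γ * S.el b
  rw [← half false, ← half true, conj_mul, inv_mul_cancel_right, ← S.el_word b.U b.g b.p b.q hb]

/-- Adding one inner node on both sides. -/
theorem doubles_add (hE : Effective Y Q) [CompactSpace Y] {b : Box Y Q} {I J : Code Y} {L D : ℕ}
    (hA : S.Adapt (S.el b) I J L) (hId : S.Doubles b I J D) {p q : List Bool}
    {g : Q} {V : Clopens Y} (h : ∀ r c, p = r ++ [c] → V ≤ I.node r)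
    (hd : Disjoint (I.node p) V) (hm : Maps (S.toPerm (S.el b)) V p g q) (hp : p.length < D)
    (hq : q.length < D) :
    ∃ J' : Code Y, S.Adapt (S.el b) (I.add p V h) J' L ∧ S.Doubles b (I.add p V h) J' D ∧
      ((∀ r, D ≤ r.length → J.node r = ⊥) → J'.Bounded D) := by
  classical
  have hleaf : ∀ y ∈ V, I.Leaf y p := fun y hy =>
    ⟨fun r c e => h r c e hy, fun hy' => disjoint_clopens.1 hd y hy' hy⟩
  -- the image is made of leaves, and the length bound holds
  have himg : ∀ y ∈ V, J.Leaf (g • y) q ∧ p.length ≤ q.length + L := by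
    intro y hy
    obtain ⟨g', q', e, hl, hlen⟩ := hA y p (hleaf y hy)
    obtain ⟨e1, e2⟩ := pr_eq_of_maps (fun s => hm y hy s) e
    rw [e1, e2]
    exact ⟨hl, hlen⟩
  have h' : ∀ r c, q = r ++ [c] → smulC g V ≤ J.node r := by
    intro r c e w hw
    have := (himg (g⁻¹ • w) hw).1.1 r c e
    rwa [smul_inv_smul] at this
  have hd' : Disjoint (J.node q) (smulC g V) := disjoint_clopens.2 fun w h1 h2 => by
    have := (himg (g⁻¹ • w) h2).1.2
    rw [smul_inv_smul] at this
    exact this h1
  refine ⟨J.add q (smulC g V) h', ?_, ?_, fun hJ => Code.Bounded.add hJ hq⟩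
  · intro y r hr
    by_cases hc : y ∈ V ∧ ∃ c, r = p ++ [c]
    · obtain ⟨hy, c, rfl⟩ := hc
      refine ⟨g, q ++ [c], fun s => ?_, ⟨fun t c' e => ?_, ?_⟩, by
        have := (himg y hy).2; simp; omega⟩
      · rw [app_append, app_append]; exact hm y hy _
      · obtain ⟨rfl, -⟩ := List.append_inj' e rfl
        show g • y ∈ (if q = q then J.node q ⊔ smulC g V else J.node q)
        rw [if_pos rfl]
        exact Or.inr (smul_mem_smulC hy)
      · show g • y ∉ (if q ++ [c] = q then J.node (q ++ [c]) ⊔ smulC g V else J.node (q ++ [c]))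
        rw [if_neg (by simp)]
        exact fun hh => (himg y hy).1.2 (J.mono q c hh)
    · -- an old leaf
      have hold : I.Leaf y r ∧ ¬(r = p ∧ y ∈ V) := by
        refine ⟨⟨fun t c e => ?_, fun hh => hr.2 ?_⟩, fun ⟨e, hy⟩ => hr.2 ?_⟩
        · have h2 := hr.1 t c e
          simp only [Code.add] at h2
          split_ifs at h2 with h3
          · rcases h2 with h2 | h2
            · exact h2
            · exact absurd ⟨h2, c, by rw [e, h3]⟩ hc
          · exact h2
        · show y ∈ (if r = p then I.node r ⊔ V else I.node r)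
          split_ifs
          · exact Or.inl hh
          · exact hh
        · show y ∈ (if r = p then I.node r ⊔ V else I.node r)
          rw [if_pos e]
          exact Or.inr hy
      obtain ⟨g', q', e, hl, hlen⟩ := hA y r hold.1
      refine ⟨g', q', e, ⟨fun t c e' => ?_, ?_⟩, hlen⟩
      · show g' • y ∈ (if t = q then J.node t ⊔ smulC g V else J.node t)
        split_ifs
        · exact Or.inl (hl.1 t c e')
        · exact hl.1 t c e'
      · show g' • y ∉ (if q' = q then J.node q' ⊔ smulC g V else J.node q')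
        split_ifs with hqq
        · rintro (hh | hh)
          · exact hl.2 hh
          · have h2 := hm (g⁻¹ • (g' • y)) hh fun _ => false
            rw [smul_inv_smul, ← hqq, ← e fun _ => false] at h2
            obtain ⟨h3, h4⟩ := Prod.mk.inj ((S.toPerm (S.el b)).injective h2)
            have hyV : y ∈ V := by rw [← h3]; exact hh
            exact hold.2 ⟨(hleaf y hyV).eq_of_app hold.1 h4 |>.symm, hyV⟩
        · exact hl.2
  · unfold Doubles at hId ⊢
    have hmid := S.conj hE (S.el b) (midBox V p) (midBox_valid V p) g g (q ++ [false, true])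
      (q ++ [true, false]) (hm.mono le_rfl _)
      (by simpa [midBox] using hm.mono (le_refl V) [true, false])
    have himage : (midBox (Q := Q) V p).image g g (q ++ [false, true]) (q ++ [true, false]) =
        midBox (smulC g V) q := by simp [Box.image, midBox]
    rw [himage, mul_inv_eq_iff_eq_mul] at hmid
    rw [S.gam_add I p V h hd hp, S.gam_add J q _ h' hd' hq, ← mul_assoc, hId, mul_assoc, hmid,
      mul_assoc]

/-- Pieces of one word over a code finer than the base code. -/
theorem doubles_word (hE : Effective Y Q) [CompactSpace Y] {b : Box Y Q} (hb : b.Valid)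
    {I J : Code Y} {L D : ℕ} (hI0 : ∀ r, (baseCode b).node r ≤ I.node r) (hI : I.Bounded D)
    (hJ : J.Bounded D) (hA : S.Adapt (S.el b) I J L) (hId : S.Doubles b I J D) {p : List Bool}
    {V : Clopens Y} (h : ∀ r c, p = r ++ [c] → V ≤ I.node r) (hd : Disjoint (I.node p) V)
    (hp : p.length + b.p.length + b.q.length < D) :
    ∃ (I' J' : Code Y), I'.node = (fun r => if r = p then I.node r ⊔ V else I.node r) ∧
      I'.Bounded D ∧ J'.Bounded D ∧ S.Adapt (S.el b) I' J' L ∧ S.Doubles b I' J' D := by
  classical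
  set A : Clopens Y := if b.p <+: p then V ⊓ b.U else ⊥ with hAdef
  set B : Clopens Y := if b.q <+: p then V ⊓ smulC b.g b.U else ⊥ with hBdef
  set C : Clopens Y := V ⊓ Aᶜ ⊓ Bᶜ with hCdef
  have hAV : A ≤ V := by rw [hAdef]; split_ifs; exacts [inf_le_left, bot_le]
  have hBV : B ≤ V := by rw [hBdef]; split_ifs; exacts [inf_le_left, bot_le]
  have hCV : C ≤ V := inf_le_left.trans inf_le_left
  have memA : ∀ {y}, y ∈ A ↔ y ∈ V ∧ y ∈ b.U ∧ b.p <+: p := by
    intro y
    rw [hAdef]
    split_ifs with h'
    · exact ⟨fun hy => ⟨hy.1, hy.2, h'⟩, fun hy => ⟨hy.1, hy.2.1⟩⟩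
    · exact ⟨fun hy => hy.elim, fun hy => absurd hy.2.2 h'⟩
  have memB : ∀ {y}, y ∈ B ↔ y ∈ V ∧ y ∈ smulC b.g b.U ∧ b.q <+: p := by
    intro y
    rw [hBdef]
    split_ifs with h'
    · exact ⟨fun hy => ⟨hy.1, hy.2, h'⟩, fun hy => ⟨hy.1, hy.2.1⟩⟩
    · exact ⟨fun hy => hy.elim, fun hy => absurd hy.2.2 h'⟩
  have hAB : Disjoint A B := disjoint_clopens.2 fun y h1 h2 => by
    obtain ⟨-, hu, ⟨t, ht⟩⟩ := memA.1 h1
    obtain ⟨-, hu', ⟨t', ht'⟩⟩ := memB.1 h2
    exact Set.disjoint_left.1 hb (show ((y, app p fun _ => false) : Pt Y) ∈ b.dom from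
      ⟨hu, app t _, by rw [← app_append, ht]⟩) ⟨hu', app t' _, by rw [← app_append, ht']⟩
  have hAC : Disjoint (A ⊔ B) C := disjoint_clopens.2 fun y h1 h2 =>
    h1.elim (fun h => h2.1.2 h) (fun h => h2.2 h)
  have hsup : A ⊔ B ⊔ C = V := by
    apply SetLike.ext
    intro y
    refine ⟨fun hy => ?_, fun hy => ?_⟩
    · rcases hy with (hy | hy) | hy
      exacts [hAV hy, hBV hy, hCV hy]
    · by_cases h1 : y ∈ A
      · exact Or.inl (Or.inl h1)
      by_cases h2 : y ∈ B
      · exact Or.inl (Or.inr h2)
      exact Or.inr ⟨⟨hy, h1⟩, h2⟩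
  have hfe : (S.toPerm (S.el b) : Pt Y → Pt Y) = b.move := funext (S.toPerm_el b hb)
  obtain ⟨gA, qA, mA, lA⟩ : ∃ (g : Q) (q : List Bool),
      Maps (S.toPerm (S.el b)) A p g q ∧ q.length < D := by
    by_cases hpre : b.p <+: p
    · obtain ⟨t, rfl⟩ := hpre
      refine ⟨b.g, b.q ++ t, hfe ▸ (maps_move b).mono (fun y hy => (memA.1 hy).2.1) t, ?_⟩
      simp at hp ⊢; omega
    · exact ⟨1, p, fun y hy => absurd (memA.1 hy).2.2 hpre, by omega⟩
  obtain ⟨gB, qB, mB, lB⟩ : ∃ (g : Q) (q : List Bool),
      Maps (S.toPerm (S.el b)) B p g q ∧ q.length < D := by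
    by_cases hpre : b.q <+: p
    · obtain ⟨t, rfl⟩ := hpre
      refine ⟨b.g⁻¹, b.p ++ t, hfe ▸ (maps_move_flip hb).mono (fun y hy => (memB.1 hy).2.1) t, ?_⟩
      simp at hp ⊢; omega
    · exact ⟨1, p, fun y hy => absurd (memB.1 hy).2.2 hpre, by omega⟩
  have mC : Maps (S.toPerm (S.el b)) C p (1 : Q) p := by
    refine maps_of_fix fun z hz => ?_
    obtain ⟨y, x⟩ := z
    obtain ⟨hy, s, rfl : x = app p s⟩ := hz
    rw [S.toPerm_el b hb]
    have hleaf : I.Leaf y p :=
      ⟨fun r c e => h r c e (hCV hy), fun hh => disjoint_clopens.1 hd y hh (hCV hy)⟩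
    rcases piece hI0 hleaf with ⟨h1, h2⟩ | ⟨h1, h2⟩ | hout
    · exact absurd (memA.2 ⟨hCV hy, h1, h2⟩) hy.1.2
    · exact absurd (memB.2 ⟨hCV hy, h1, h2⟩) hy.2
    · exact Box.move_out (hout s)
  have hp' : p.length < D := by omega
  obtain ⟨J1, hA1, hId1, hJ1⟩ := doubles_add hE hA hId (fun r c e => hAV.trans (h r c e))
    (hd.mono_right hAV) mA hp' lA
  have hI1 := Code.Bounded.add hI (h := fun r c e => hAV.trans (h r c e)) hp' (V := A)
  obtain ⟨J2, hA2, hId2, hJ2⟩ := doubles_add hE hA1 hId1 (V := B)
    (fun r c e => (hBV.trans (h r c e)).trans (by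
      simp only [Code.add]; split_ifs <;> [exact le_sup_left; exact le_rfl]))
    (by simp only [Code.add, if_true]; exact (hd.mono_right hBV).sup_left hAB) mB hp' lB
  obtain ⟨J3, hA3, hId3, hJ3⟩ := doubles_add hE hA2 hId2 (V := C)
    (fun r c e => (hCV.trans (h r c e)).trans (by
      simp only [Code.add]
      split_ifs <;> [exact le_sup_left.trans le_sup_left; exact le_rfl]))
    (by
      simp only [Code.add, if_true]
      rw [sup_assoc]
      exact (hd.mono_right hCV).sup_left hAC) mC hp' hp'
  refine ⟨_, J3, ?_, Code.Bounded.add (Code.Bounded.add hI1 hp') hp',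
    hJ3 (hJ2 (hJ1 hJ)), hA3, hId3⟩
  funext r
  simp only [Code.add]
  split_ifs with hr
  · rw [← hsup]; simp [sup_assoc]
  · rfl

theorem Adapt.congr {x : G} {I I' J : Code Y} {L : ℕ} (h : I.node = I'.node)
    (hA : S.Adapt x I J L) : S.Adapt x I' J L := by
  obtain ⟨n, m⟩ := I
  obtain ⟨n', m'⟩ := I'
  obtain rfl : n = n' := h
  exact hA

/-- Every code finer than the base code has an adapted partner. -/
theorem doubles_refine (hE : Effective Y Q) [CompactSpace Y] {b : Box Y Q} (hb : b.Valid)
    {K : Code Y} (hK : ∀ r, (baseCode b).node r ≤ K.node r) {N D : ℕ} (hKN : K.Bounded N)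
    (hD : N + b.p.length + b.q.length < D) :
    ∃ J : Code Y, J.Bounded D ∧ S.Adapt (S.el b) K J (b.p.length + b.q.length) ∧
      S.Doubles b K J D := by
  classical
  set I0 := baseCode b with hI0
  have hB0 : ∀ r : List Bool, b.p.length + b.q.length ≤ r.length → I0.node r = ⊥ := by
    intro r hr
    apply SetLike.ext
    intro y
    refine ⟨fun hy => ?_, fun hy => hy.elim⟩
    rcases mem_baseCode.1 hy with ⟨-, h1, h2⟩ | ⟨-, h1, h2⟩
    all_goals exact (h2 (h1.eq_of_length (by have := h1.length_le; omega))).elim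
  have step : ∀ (d : ℕ) (l : List (List Bool)), l.Nodup → (∀ p ∈ l, p.length = d) → d < N →
      ∃ (I J : Code Y), (∀ r, I.node r = if r.length < d ∨ r ∈ l then K.node r else I0.node r) ∧
        I.Bounded D ∧ J.Bounded D ∧ S.Adapt (S.el b) I J (b.p.length + b.q.length) ∧
        S.Doubles b I J D := by
    intro d
    induction d with
    | zero =>
      intro l
      induction l with
      | nil =>
        intro _ _ _
        exact ⟨I0, I0, by simp, fun r hr => hB0 r (by omega), fun r hr => hB0 r (by omega),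
          adapt_base hb, doubles_base hE hb (by omega)⟩
      | cons p l ih =>
        intro hn hl hdN
        rw [List.nodup_cons] at hn
        simp only [List.forall_mem_cons] at hl
        obtain ⟨I, J, hIn, hI, hJ, hA, hId⟩ := ih hn.2 hl.2 hdN
        have hI0le : ∀ r, I0.node r ≤ I.node r := fun r => by
          rw [hIn]; split_ifs <;> [exact hK r; exact le_rfl]
        have hnp : I.node p = I0.node p := by
          rw [hIn, if_neg]
          rintro (h | h)
          · omega
          · exact hn.1 h
        obtain ⟨I', J', hI', hb1, hb2, hA', hId'⟩ := doubles_word hE hb hI0le hI hJ hA hId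
          (p := p) (V := K.node p ⊓ (I0.node p)ᶜ)
          (fun r c e => by rw [e] at hl; simp at hl)
          (by rw [hnp]; exact disjoint_compl_right.mono_right inf_le_right)
          (by omega)
        refine ⟨I', J', fun r => ?_, hb1, hb2, hA', hId'⟩
        simp only [hI', List.mem_cons]
        by_cases hr : r = p
        · subst hr
          rw [if_pos rfl, if_pos (Or.inr (Or.inl rfl)), hnp, sup_inf_left, sup_compl_eq_top,
            inf_top_eq, sup_eq_right.2 (hK r)]
        · simp [hr, hIn]
    | succ d ihd =>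
      intro l
      induction l with
      | nil =>
        intro _ _ hdN
        obtain ⟨I, J, hIn, h⟩ := ihd (words d) (nodup_words d) (fun p hp => mem_words.1 hp) (by omega)
        refine ⟨I, J, fun r => ?_, h⟩
        rw [hIn]
        by_cases h1 : r.length < d + 1
        · rw [if_pos, if_pos (Or.inl h1)]
          rcases Nat.lt_or_ge r.length d with h2 | h2
          · exact Or.inl h2
          · exact Or.inr (mem_words.2 (by omega))
        · rw [if_neg, if_neg (by simpa using h1)]
          rw [mem_words]; omega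
      | cons p l ih =>
        intro hn hl hdN
        rw [List.nodup_cons] at hn
        simp only [List.forall_mem_cons] at hl
        obtain ⟨I, J, hIn, hI, hJ, hA, hId⟩ := ih hn.2 hl.2 hdN
        have hI0le : ∀ r, I0.node r ≤ I.node r := fun r => by
          rw [hIn]; split_ifs <;> [exact hK r; exact le_rfl]
        have hnp : I.node p = I0.node p := by
          rw [hIn, if_neg]
          rintro (h | h)
          · omega
          · exact hn.1 h
        obtain ⟨I', J', hI', hb1, hb2, hA', hId'⟩ := doubles_word hE hb hI0le hI hJ hA hId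
          (p := p) (V := K.node p ⊓ (I0.node p)ᶜ)
          (fun r c e => by
            rw [hIn, if_pos (Or.inl (by rw [e] at hl; simp at hl; omega))]
            exact inf_le_left.trans (e ▸ K.mono r c))
          (by rw [hnp]; exact disjoint_compl_right.mono_right inf_le_right)
          (by omega)
        refine ⟨I', J', fun r => ?_, hb1, hb2, hA', hId'⟩
        simp only [hI', List.mem_cons]
        by_cases hr : r = p
        · subst hr
          rw [if_pos rfl, if_pos (Or.inr (Or.inl rfl)), hnp, sup_inf_left, sup_compl_eq_top,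
            inf_top_eq, sup_eq_right.2 (hK r)]
        · simp [hr, hIn]
  rcases Nat.eq_zero_or_pos N with rfl | hN
  · have e : I0.node = K.node := by
      funext r
      rw [hKN r (Nat.zero_le _)]
      exact le_bot_iff.1 ((hK r).trans (hKN r (Nat.zero_le _)).le)
    refine ⟨I0, fun r hr => hB0 r (by omega), (adapt_base hb).congr e, ?_⟩
    have h0 := doubles_base (S := S) hE hb (D := D) (by omega)
    obtain ⟨nK, mK⟩ := K
    simp only at e
    subst e
    exact h0
  · obtain ⟨d, rfl⟩ := Nat.exists_eq_succ_of_ne_zero hN.ne'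
    obtain ⟨I, J, hIn, hI, hJ, hA, hId⟩ :=
      step d (words d) (nodup_words d) (fun p hp => mem_words.1 hp) (Nat.lt_succ_self d)
    have e : I.node = K.node := by
      funext r
      rw [hIn]
      split_ifs with h
      · rfl
      · rw [mem_words] at h
        have h2 : d + 1 ≤ r.length := by omega
        rw [hKN r h2]
        exact le_bot_iff.1 ((hK r).trans (hKN r h2).le)
    refine ⟨J, hJ, hA.congr e, ?_⟩
    obtain ⟨nI, mI⟩ := I
    obtain ⟨nK, mK⟩ := K
    simp only at e
    subst e
    exact hId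

theorem gam_mono (S : BoxSystem Y Q G) (I : Code Y) {D E : ℕ} (hD : I.Bounded D) (h : D ≤ E) :
    S.gam I E = S.gam I D := by
  obtain ⟨k, rfl⟩ := Nat.exists_eq_add_of_le h
  induction k with
  | zero => rfl
  | succ k ih =>
    rw [← Nat.add_assoc, gam, ih (Nat.le_add_right _ _)]
    have : S.lay I (D + k) = 1 := List.prod_eq_one fun x hx => by
      obtain ⟨r, hr, rfl⟩ := List.mem_map.1 hx
      rw [hD r (by rw [mem_words.1 hr]; omega)]
      exact S.el_bot _ _ _
    rw [this, mul_one]

/-- The total length of the words of a list of boxes. -/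
def wlen : List (Box Y Q) → ℕ
  | [] => 0
  | b :: l => b.p.length + b.q.length + 1 + wlen l

theorem chain (hE : Effective Y Q) [CompactSpace Y] :
    ∀ (l : List (Box Y Q)), (∀ b ∈ l, b.Valid) → ∀ (K : Code Y) (m N : ℕ),
      K.Bounded N → (∀ (y : Y) (r : List Bool), r.length < m → y ∈ K.node r) → wlen l ≤ m →
      ∀ D, N + wlen l < D → ∃ J : Code Y, J.Bounded D ∧
        S.Adapt (S.val l) K J (wlen l) ∧
        (∀ (y : Y) (r : List Bool), r.length + wlen l < m → y ∈ J.node r) ∧
        S.pv [false] l * S.pv [true] l * S.gam K D = S.gam J D * S.val l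
  | [], _, K, m, N, hK, hdeep, _, D, hD => by
    refine ⟨K, fun r hr => hK r (by simp [wlen] at hD; omega), fun y p hp => ?_, ?_, ?_⟩
    · exact ⟨1, p, fun s => by simp [val], by rwa [one_smul], by omega⟩
    · intro y r hr; exact hdeep y r (by simpa [wlen] using hr)
    · simp [pv, val]
  | b :: l, hl, K, m, N, hK, hdeep, hm, D, hD => by
    simp only [List.forall_mem_cons] at hl
    simp only [wlen] at hm hD ⊢
    obtain ⟨J₁, hJ₁, hA₁, hdeep₁, hId₁⟩ := chain hE l hl.2 K m N hK hdeep (by omega)
      (N + wlen l + 1) (by omega)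
    have hbase : ∀ r, (baseCode b).node r ≤ J₁.node r := fun r y hy => by
      refine hdeep₁ y r ?_
      rcases mem_baseCode.1 hy with ⟨-, h1, h2⟩ | ⟨-, h1, h2⟩
      all_goals
        have hlt : r.length < _ :=
          lt_of_le_of_ne h1.length_le fun e => h2 (h1.eq_of_length e)
        omega
    obtain ⟨J, hJ, hA, hId⟩ := doubles_refine (S := S) hE hl.1 hbase hJ₁ (D := D) (by omega)
    refine ⟨J, hJ, fun y p hp => ?_, fun y r hr => ?_, ?_⟩
    · obtain ⟨g, q, e, hq, hlen⟩ := hA₁ y p hp
      obtain ⟨g', q', e', hq', hlen'⟩ := hA (g • y) q hq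
      refine ⟨g' * g, q', fun s => ?_, by rw [mul_smul]; exact hq', by omega⟩
      rw [val, List.map_cons, List.prod_cons, map_mul, Equiv.Perm.mul_apply, mul_smul,
        show (l.map S.el).prod = S.val l from rfl, e, e']
    · by_contra hy
      -- the leaf at a point below `r` is shorter than the bound
      obtain ⟨q', t, hq', -, et⟩ := Code.exists_leaf hJ y (app r fun _ => false)
      obtain ⟨z, hz⟩ : ∃ z, S.toPerm (S.el b) z = (y, app q' t) := (S.toPerm (S.el b)).surjective _
      obtain ⟨z1, z2⟩ := z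
      obtain ⟨q, u, hq, -, eu⟩ := Code.exists_leaf hJ₁ z1 z2
      obtain ⟨g, q'', e, hl'', hlen⟩ := hA z1 q hq
      have hpt : ((g • z1, app q'' u) : Pt Y) = (y, app q' t) := by
        rw [← e u, ← eu, hz]
      obtain ⟨h1, h2⟩ := Prod.mk.inj hpt
      rw [h1] at hl''
      have hqq : q'' = q' := hl''.eq_of_app hq' h2
      have hqdeep : m ≤ q.length + wlen l := by
        by_contra hh
        exact hq.2 (hdeep₁ _ q (by omega))
      rcases Nat.lt_or_ge r.length q'.length with hrl | hrl
      · obtain ⟨w, hw, -⟩ := app_eq_prefix hrl.le et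
        exact hy (hq'.mem_of_lt ⟨w, hw.symm⟩ fun e => by rw [e] at hrl; omega)
      · rw [hqq] at hlen
        omega
    · have hγ : S.gam K D = S.gam K (N + wlen l + 1) :=
        (gam_mono S K (fun r hr => hK r hr) (by omega)).trans
          (gam_mono S K hK (by omega)).symm
      have hγ₁ : S.gam J₁ D = S.gam J₁ (N + wlen l + 1) := gam_mono S J₁ hJ₁ (by omega)
      have hc : Commute (S.el (b.push [true])) (S.pv [false] l) :=
        S.commute_pv (by simp) (by simp) hl.1 l hl.2
      unfold Doubles at hId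
      simp only [pv, val, List.map_cons, List.prod_cons] at hId₁ hc ⊢
      calc S.el (b.push [false]) * (List.map S.el (List.map (Box.push [false]) l)).prod *
            (S.el (b.push [true]) * (List.map S.el (List.map (Box.push [true]) l)).prod) *
            S.gam K D
          = S.el (b.push [false]) * ((List.map S.el (List.map (Box.push [false]) l)).prod *
            S.el (b.push [true])) * (List.map S.el (List.map (Box.push [true]) l)).prod *
            S.gam K D := by group
        _ = S.el (b.push [false]) * S.el (b.push [true]) *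
            ((List.map S.el (List.map (Box.push [false]) l)).prod *
              (List.map S.el (List.map (Box.push [true]) l)).prod * S.gam K D) := by
            rw [← hc.eq]; group
        _ = S.el (b.push [false]) * S.el (b.push [true]) * S.gam J₁ D *
            (List.map S.el l).prod := by rw [hγ, hId₁, hγ₁]; group
        _ = S.gam J D * (S.el b * (List.map S.el l).prod) := by rw [hId, mul_assoc]

/-- An element acting trivially is the product of its two compressed copies. -/
theorem val_eq_pv (hE : Effective Y Q) [CompactSpace Y] (l : List (Box Y Q))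
    (hl : ∀ b ∈ l, b.Valid) (hw : S.toPerm (S.val l) = 1) :
    S.val l = S.pv [false] l * S.pv [true] l := by
  classical
  let K : Code Y :=
    { node := fun r => if r.length < wlen l then ⊤ else ⊥
      mono := fun r c => by
        simp only [List.length_append, List.length_singleton]
        split_ifs <;> first | exact le_rfl | exact bot_le | (exfalso; omega) }
  have hK : K.Bounded (wlen l) := fun r hr => if_neg (by omega)
  obtain ⟨J, -, hA, -, hId⟩ := chain (S := S) hE l hl K (wlen l) (wlen l) hK
    (fun y r hr => by show y ∈ (if r.length < wlen l then (⊤ : Clopens Y) else ⊥)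
                      rw [if_pos hr]; trivial)
    le_rfl (2 * wlen l + 1) (by omega)
  have e : K.node = J.node := Code.node_eq_of_leaf hK fun y p hp => by
    obtain ⟨g, q, hq, hl', -⟩ := hA y p hp
    obtain ⟨e1, e2⟩ := pr_eq_of_maps (g := g) (g' := (1 : Q)) (q' := p) (fun s => hq s)
      (fun s => by rw [hw, one_smul]; rfl)
    rwa [e1, e2, one_smul] at hl'
  obtain ⟨nJ, mJ⟩ := J
  simp only at e
  subst e
  rw [← (S.commute_of_toPerm_eq_one hE hw _).eq] at hId
  exact (mul_right_cancel hId).symm

variable (S) in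
/-- The action of a box system is faithful. -/
theorem toPerm_injective (hE : Effective Y Q) [CompactSpace Y] :
    Function.Injective S.toPerm := by
  refine (injective_iff_map_eq_one _).2 fun x hx => ?_
  obtain ⟨l, hl, rfl⟩ := S.exists_word x
  have hw : S.toPerm (S.val l) = 1 := hx
  have hl' : ∀ b ∈ l.map (Box.push [false]), b.Valid := by
    intro b hb
    obtain ⟨b', hb', rfl⟩ := List.mem_map.1 hb
    exact b'.push_valid (hl b' hb') _
  have hw' : S.toPerm (S.val (l.map (Box.push [false]))) = 1 := S.pv_trivial _ l hl hw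
  have hpp : ∀ c : List Bool, S.pv c (l.map (Box.push [false])) = S.pv (c ++ [false]) l := by
    intro c
    simp only [pv, List.map_map]
    congr 1
    refine List.map_congr_left fun b _ => ?_
    simp [Box.push, List.append_assoc]
  have e1 := val_eq_pv hE l hl hw
  have e2 := val_eq_pv hE _ hl' hw'
  rw [show S.val (l.map (Box.push [false])) = S.pv [false] l from rfl, hpp, hpp] at e2
  have a : S.pv ([true] ++ [false]) l = S.pv [false] l :=
    S.pv_eq_pv hE (by simp) (by simp) l hl hw
  have b : S.pv ([false] ++ [false]) l = S.pv ([true] ++ [false]) l :=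
    S.pv_eq_pv hE (by simp) (by simp) l hl hw
  have c : S.pv [true] l = S.pv [false] l := S.pv_eq_pv hE (by simp) (by simp) l hl hw
  rw [b, a] at e2
  rw [show (l.map S.el).prod = S.val l from rfl, e1, c, left_eq_mul.1 e2, mul_one]

end BoxSystem

end Vale.Agent.P193.Fp
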