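import Vale.Agent.P193.Fp.Defs

/-!
# P193: arithmetic of words, cylinders and boxes
-/

namespace Vale.Agent.P193.Fp

open TopologicalSpace

/-! ## Words -/

theorem scons_inj {a b : Bool} {s t : ℕ → Bool} (h : scons a s = scons b t) : a = b ∧ s = t :=
  ⟨congrFun h 0, funext fun n => congrFun h (n + 1)⟩

theorem scons_eta (s : ℕ → Bool) : scons (s 0) (sdrop 1 s) = s := by
  funext n
  cases n with
  | zero => rfl
  | succ n => simp [scons, sdrop, Nat.add_comm 1 n]

@[simp] theorem app_nil (s : ℕ → Bool) : app [] s = s := rfl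

@[simp] theorem app_cons (b : Bool) (p : List Bool) (s : ℕ → Bool) :
    app (b :: p) s = scons b (app p s) := rfl

theorem app_append (p q : List Bool) (s : ℕ → Bool) : app (p ++ q) s = app p (app q s) := by
  induction p with
  | nil => rfl
  | cons b p ih => simp [ih]

theorem sdrop_app (p : List Bool) (s : ℕ → Bool) : sdrop p.length (app p s) = s := by
  induction p with
  | nil => funext k; simp [sdrop]
  | cons b p ih =>
    funext k
    have := congrFun ih k
    simp only [sdrop] at this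
    simp only [sdrop, List.length_cons, app_cons]
    rw [show p.length + 1 + k = (p.length + k) + 1 by omega]
    exact this

theorem app_inj_right {p : List Bool} {s t : ℕ → Bool} (h : app p s = app p t) : s = t := by
  have := congrArg (sdrop p.length) h
  rwa [sdrop_app, sdrop_app] at this

/-- The first `n` letters. -/
def stake : ℕ → (ℕ → Bool) → List Bool
  | 0, _ => []
  | n + 1, s => s 0 :: stake n (sdrop 1 s)

@[simp] theorem length_stake (n : ℕ) (s : ℕ → Bool) : (stake n s).length = n := by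
  induction n generalizing s with
  | zero => rfl
  | succ n ih => simp [stake, ih]

theorem app_stake (n : ℕ) (s : ℕ → Bool) : app (stake n s) (sdrop n s) = s := by
  induction n generalizing s with
  | zero => funext k; simp [stake, sdrop]
  | succ n ih =>
    have e : sdrop (n + 1) s = sdrop n (sdrop 1 s) := by
      funext k; simp only [sdrop]; congr 1; omega
    rw [stake, app_cons, e, ih, scons_eta]

theorem stake_app (p : List Bool) (s : ℕ → Bool) : stake p.length (app p s) = p := by
  induction p with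
  | nil => rfl
  | cons b p ih =>
    have e : sdrop 1 (scons b (app p s)) = app p s := by
      funext k; simp [sdrop, Nat.add_comm 1 k, scons]
    simp [stake, e, ih, scons]

theorem app_inj_of_length {p q : List Bool} (h : p.length = q.length) {s t : ℕ → Bool}
    (e : app p s = app q t) : p = q ∧ s = t := by
  have hp : p = q := by rw [← stake_app p s, e, h, stake_app]
  exact ⟨hp, app_inj_right (hp ▸ e)⟩

theorem app_eq_prefix {p q : List Bool} {s t : ℕ → Bool} (hl : p.length ≤ q.length)
    (e : app p s = app q t) : ∃ r, q = p ++ r ∧ s = app r t := by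
  have e' : app p s = app (q.take p.length) (app (q.drop p.length) t) := by
    rw [← app_append, List.take_append_drop, e]
  obtain ⟨h1, h2⟩ := app_inj_of_length (by simp [hl]) e'
  refine ⟨q.drop p.length, ?_, h2⟩
  conv_rhs => arg 1; rw [h1]
  rw [List.take_append_drop]

theorem app_ext {p q : List Bool} (h : ∀ s, app p s = app q s) : p = q := by
  rcases Nat.le_total p.length q.length with hl | hl
  · obtain ⟨r, rfl, -⟩ := app_eq_prefix hl (h fun _ => false)
    cases r with
    | nil => simp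
    | cons b r =>
      have h' := h fun _ => !b
      rw [app_append] at h'
      exact absurd (congrFun (app_inj_right h') 0) (by cases b <;> simp [scons])
  · obtain ⟨r, rfl, -⟩ := app_eq_prefix hl (h fun _ => false).symm
    cases r with
    | nil => simp
    | cons b r =>
      have h' := h fun _ => !b
      rw [app_append] at h'
      exact absurd (congrFun (app_inj_right h') 0) (by cases b <;> simp [scons])

variable {Y Q : Type*} [TopologicalSpace Y]

section Act

variable [Group Q] [MulAction Q Y] [ContinuousConstSMul Q Y]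

/-! ## Translated clopens -/

@[simp] theorem mem_smulC {g : Q} {U : Clopens Y} {y : Y} : y ∈ smulC g U ↔ g⁻¹ • y ∈ U :=
  Iff.rfl

theorem smul_mem_smulC {g : Q} {U : Clopens Y} {y : Y} (h : y ∈ U) : g • y ∈ smulC g U := by
  rw [mem_smulC, inv_smul_smul]; exact h

@[simp] theorem smulC_one (U : Clopens Y) : smulC (1 : Q) U = U := by
  apply SetLike.ext; intro y; simp

theorem smulC_smulC (g h : Q) (U : Clopens Y) : smulC g (smulC h U) = smulC (g * h) U := by
  apply SetLike.ext; intro y; simp [mul_smul]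

theorem smulC_sup (g : Q) (U V : Clopens Y) : smulC g (U ⊔ V) = smulC g U ⊔ smulC g V := rfl

theorem smulC_inf (g : Q) (U V : Clopens Y) : smulC g (U ⊓ V) = smulC g U ⊓ smulC g V := rfl

@[simp] theorem smulC_bot (g : Q) : smulC g (⊥ : Clopens Y) = ⊥ := rfl

@[simp] theorem smulC_top (g : Q) : smulC g (⊤ : Clopens Y) = ⊤ := rfl

theorem smulC_mono (g : Q) {U V : Clopens Y} (h : U ≤ V) : smulC g U ≤ smulC g V :=
  fun _ hy => h hy

theorem smulC_eq_bot {g : Q} {U : Clopens Y} : smulC g U = ⊥ ↔ U = ⊥ := by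
  refine ⟨fun h => ?_, fun h => by rw [h]; rfl⟩
  have e := congrArg (smulC g⁻¹) h
  rwa [smulC_smulC, inv_mul_cancel, smulC_one, smulC_bot] at e

end Act

theorem clopens_ne_bot {U : Clopens Y} : U ≠ ⊥ ↔ ∃ y, y ∈ U := by
  constructor
  · intro h
    by_contra! hn
    exact h (SetLike.ext fun y => ⟨fun hy => absurd hy (hn y), fun hy => hy.elim⟩)
  · rintro ⟨y, hy⟩ rfl
    exact hy

theorem disjoint_clopens {U V : Clopens Y} : Disjoint U V ↔ ∀ y, y ∈ U → y ∉ V := by
  rw [disjoint_iff_inf_le]
  exact ⟨fun h y h1 h2 => h ⟨h1, h2⟩, fun h y hy => (h y hy.1 hy.2).elim⟩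

/-! ## Cylinders -/

omit [TopologicalSpace Y] in
theorem mem_cyl {U : Set Y} {p : List Bool} {z : Pt Y} :
    z ∈ cyl U p ↔ z.1 ∈ U ∧ ∃ s, z.2 = app p s := Iff.rfl

omit [TopologicalSpace Y] in
theorem mk_mem_cyl {U : Set Y} {p : List Bool} {y : Y} (h : y ∈ U) (s : ℕ → Bool) :
    ((y, app p s) : Pt Y) ∈ cyl U p := ⟨h, s, rfl⟩

omit [TopologicalSpace Y] in
theorem cyl_mono {U V : Set Y} (h : U ⊆ V) (p : List Bool) : cyl U p ⊆ cyl V p :=
  fun _ hz => ⟨h hz.1, hz.2⟩

omit [TopologicalSpace Y] in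
theorem cyl_append_subset (U : Set Y) (p r : List Bool) : cyl U (p ++ r) ⊆ cyl U p :=
  fun _ ⟨h, s, e⟩ => ⟨h, app r s, e.trans (app_append p r s)⟩

omit [TopologicalSpace Y] in
theorem cyl_subset {U V : Set Y} (h : U ⊆ V) {p q : List Bool} (hpq : p <+: q) :
    cyl U q ⊆ cyl V p := by
  obtain ⟨r, rfl⟩ := hpq
  exact (cyl_append_subset U p r).trans (cyl_mono h p)

theorem cyl_bot (p : List Bool) : cyl ((⊥ : Clopens Y) : Set Y) p = ∅ :=
  Set.eq_empty_of_forall_notMem fun _ hz => hz.1

omit [TopologicalSpace Y] in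
theorem disjoint_cyl_base {U V : Set Y} (h : Disjoint U V) (p q : List Bool) :
    Disjoint (cyl U p) (cyl V q) :=
  Set.disjoint_left.2 fun _ h1 h2 => Set.disjoint_left.1 h h1.1 h2.1

omit [TopologicalSpace Y] in
theorem disjoint_cyl_word {p q : List Bool} (h1 : ¬p <+: q) (h2 : ¬q <+: p) (U V : Set Y) :
    Disjoint (cyl U p) (cyl V q) := by
  refine Set.disjoint_left.2 fun z ⟨_, s, e1⟩ ⟨_, t, e2⟩ => ?_
  rcases Nat.le_total p.length q.length with hl | hl
  · obtain ⟨r, rfl, -⟩ := app_eq_prefix hl (e1.symm.trans e2)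
    exact h1 ⟨r, rfl⟩
  · obtain ⟨r, rfl, -⟩ := app_eq_prefix hl (e2.symm.trans e1)
    exact h2 ⟨r, rfl⟩

omit [TopologicalSpace Y] in
theorem disjoint_cyl_iff {U V : Set Y} {p q : List Bool} :
    Disjoint (cyl U p) (cyl V q) ↔ Disjoint U V ∨ ¬p <+: q ∧ ¬q <+: p := by
  refine ⟨fun h => ?_, ?_⟩
  · by_contra! hn
    obtain ⟨hUV, hpq⟩ := hn
    obtain ⟨y, h1, h2⟩ := Set.not_disjoint_iff.1 hUV
    by_cases hp : p <+: q
    · obtain ⟨r, rfl⟩ := hp
      exact Set.disjoint_left.1 h
        (cyl_append_subset U p r (mk_mem_cyl h1 fun _ => false)) (mk_mem_cyl h2 _)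
    · obtain ⟨r, rfl⟩ := hpq hp
      exact Set.disjoint_left.1 h (mk_mem_cyl h1 fun _ => false)
        (cyl_append_subset V q r (mk_mem_cyl h2 _))
  · rintro (h | ⟨h1, h2⟩)
    · exact disjoint_cyl_base h p q
    · exact disjoint_cyl_word h1 h2 U V

omit [TopologicalSpace Y] in
theorem cyl_split (U : Set Y) (p : List Bool) :
    cyl U p = cyl U (p ++ [false]) ∪ cyl U (p ++ [true]) := by
  refine Set.Subset.antisymm ?_
    (Set.union_subset (cyl_append_subset _ _ _) (cyl_append_subset _ _ _))
  rintro ⟨y, x⟩ ⟨hy, s, rfl : x = app p s⟩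
  have e : app p s = app (p ++ [s 0]) (sdrop 1 s) := by simp [app_append, scons_eta]
  rcases Bool.eq_false_or_eq_true (s 0) with h | h <;> rw [e, h]
  · exact Or.inr (mk_mem_cyl hy _)
  · exact Or.inl (mk_mem_cyl hy _)

/-! ## Boxes -/

section Box

variable [Group Q] [MulAction Q Y] [ContinuousConstSMul Q Y]

/-- The box read from its second side. -/
def Box.flip (b : Box Y Q) : Box Y Q := ⟨smulC b.g b.U, b.g⁻¹, b.q, b.p⟩

/-- The part of a box over `V` below the word `r`. -/
def Box.sub (b : Box Y Q) (V : Clopens Y) (r : List Bool) : Box Y Q :=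
  ⟨V, b.g, b.p ++ r, b.q ++ r⟩

theorem Box.flip_dom (b : Box Y Q) : b.flip.dom = b.cod := rfl

theorem Box.flip_cod (b : Box Y Q) : b.flip.cod = b.dom := by
  simp [Box.flip, Box.cod, Box.dom, smulC_smulC]

theorem Box.flip_supp (b : Box Y Q) : b.flip.supp = b.supp := by
  rw [Box.supp, Box.supp, flip_dom, flip_cod, Set.union_comm]

theorem Box.Valid.flip {b : Box Y Q} (h : b.Valid) : b.flip.Valid := by
  rw [Box.Valid, Box.flip_dom, Box.flip_cod]; exact h.symm

omit [Group Q] [MulAction Q Y] [ContinuousConstSMul Q Y] in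
theorem Box.sub_dom_subset {b : Box Y Q} {V : Clopens Y} (hV : V ≤ b.U) (r : List Bool) :
    (b.sub V r).dom ⊆ b.dom :=
  cyl_subset (fun _ hy => hV hy) ⟨r, rfl⟩

theorem Box.sub_cod_subset {b : Box Y Q} {V : Clopens Y} (hV : V ≤ b.U) (r : List Bool) :
    (b.sub V r).cod ⊆ b.cod :=
  cyl_subset (fun _ hy => smulC_mono b.g hV hy) ⟨r, rfl⟩

theorem Box.sub_supp_subset {b : Box Y Q} {V : Clopens Y} (hV : V ≤ b.U) (r : List Bool) :
    (b.sub V r).supp ⊆ b.supp :=
  Set.union_subset_union (Box.sub_dom_subset hV r) (Box.sub_cod_subset hV r)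

theorem Box.Valid.sub {b : Box Y Q} (h : b.Valid) {V : Clopens Y} (hV : V ≤ b.U) (r : List Bool) :
    (b.sub V r).Valid :=
  Set.disjoint_of_subset (Box.sub_dom_subset hV r) (Box.sub_cod_subset hV r) h

theorem Box.valid_bot (g : Q) (p q : List Bool) : Box.Valid (⟨⊥, g, p, q⟩ : Box Y Q) := by
  rw [Box.Valid, Box.dom, cyl_bot]; exact Set.empty_disjoint _

theorem Box.move_dom (b : Box Y Q) {y : Y} (hy : y ∈ b.U) (s : ℕ → Bool) :
    b.move (y, app b.p s) = (b.g • y, app b.q s) := by
  rw [Box.move, if_pos (show ((y, app b.p s) : Pt Y) ∈ b.dom from mk_mem_cyl hy s), sdrop_app]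

theorem Box.move_cod {b : Box Y Q} (h : b.Valid) {y : Y} (hy : y ∈ smulC b.g b.U) (s : ℕ → Bool) :
    b.move (y, app b.q s) = (b.g⁻¹ • y, app b.p s) := by
  have hc : ((y, app b.q s) : Pt Y) ∈ b.cod := mk_mem_cyl hy s
  rw [Box.move, if_neg (Set.disjoint_right.1 h hc), if_pos hc, sdrop_app]

theorem Box.move_out {b : Box Y Q} {z : Pt Y} (h : z ∉ b.supp) : b.move z = z := by
  simp only [Box.supp, Set.mem_union, not_or] at h
  rw [Box.move, if_neg h.1, if_neg h.2]

end Box

/-! ## Affine pieces -/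

section Maps

variable [Group Q] [MulAction Q Y]

/-- `f` carries the cylinder over `U` at `p` to the word `q` by `g`. -/
def Maps (f : Pt Y → Pt Y) (U : Clopens Y) (p : List Bool) (g : Q) (q : List Bool) : Prop :=
  ∀ y ∈ U, ∀ s, f (y, app p s) = (g • y, app q s)

theorem Maps.mono {f : Pt Y → Pt Y} {U V : Clopens Y} {p q : List Bool} {g : Q}
    (h : Maps f U p g q) (hV : V ≤ U) (r : List Bool) : Maps f V (p ++ r) g (q ++ r) := by
  intro y hy s
  rw [app_append, app_append]
  exact h y (hV hy) _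

theorem Maps.base {f : Pt Y → Pt Y} {U V : Clopens Y} {p q : List Bool} {g : Q}
    (h : Maps f U p g q) (hV : V ≤ U) : Maps f V p g q := fun y hy => h y (hV hy)

theorem maps_id (U : Clopens Y) (p : List Bool) : Maps id U p (1 : Q) p := by
  intro y _ s; simp

theorem maps_bot (f : Pt Y → Pt Y) (p : List Bool) (g : Q) (q : List Bool) :
    Maps f (⊥ : Clopens Y) p g q := fun _ hy => hy.elim

theorem Maps.comp [ContinuousConstSMul Q Y] {f f' : Pt Y → Pt Y} {U : Clopens Y}
    {p q r : List Bool} {g h : Q}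
    (h1 : Maps f U p g q) (h2 : Maps f' (smulC g U) q h r) : Maps (f' ∘ f) U p (h * g) r := by
  intro y hy s
  rw [Function.comp_apply, h1 y hy s, h2 _ (smul_mem_smulC hy) s, mul_smul]

theorem Maps.unique (hE : Effective Y Q) {f : Pt Y → Pt Y} {U : Clopens Y} (hU : U ≠ ⊥)
    {p q q' : List Bool} {g g' : Q} (h : Maps f U p g q) (h' : Maps f U p g' q') :
    g = g' ∧ q = q' := by
  refine ⟨?_, ?_⟩
  · have e : g'⁻¹ * g = 1 := hE _ U hU fun y hy => by
      have := congrArg Prod.fst ((h y hy fun _ => false).symm.trans (h' y hy fun _ => false))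
      simp only at this
      rw [mul_smul, this, inv_smul_smul]
    exact (inv_mul_eq_one.1 e).symm
  · obtain ⟨y, hy⟩ := clopens_ne_bot.1 hU
    exact app_ext fun s => congrArg Prod.snd ((h y hy s).symm.trans (h' y hy s))

theorem maps_move [ContinuousConstSMul Q Y] (b : Box Y Q) : Maps b.move b.U b.p b.g b.q :=
  fun _ hy s => b.move_dom hy s

theorem maps_move_flip [ContinuousConstSMul Q Y] {b : Box Y Q} (h : b.Valid) :
    Maps b.move (smulC b.g b.U) b.q b.g⁻¹ b.p :=
  fun _ hy s => Box.move_cod h hy s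

end Maps

end Vale.Agent.P193.Fp
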