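import Vale.Agent.P193.Fp.Cover

/-!
# P193: conjugation in a box system

The conjugate of a box element by any element is the element of the image box, whenever the two
sides of the box are carried affinely.
-/

namespace Vale.Agent.P193.Fp

open TopologicalSpace

variable {Y Q : Type*} [TopologicalSpace Y] [Group Q] [MulAction Q Y] [ContinuousConstSMul Q Y]
  {G : Type*} [Group G]

/-- The box of the two images. -/
def Box.image (b : Box Y Q) (g1 g2 : Q) (q1 q2 : List Bool) : Box Y Q :=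
  ⟨smulC g1 b.U, g2 * b.g * g1⁻¹, q1, q2⟩

theorem Box.image_cod (b : Box Y Q) (g1 g2 : Q) (q1 q2 : List Bool) :
    (b.image g1 g2 q1 q2).cod = cyl (smulC g2 (smulC b.g b.U) : Set Y) q2 := by
  simp [Box.image, Box.cod, smulC_smulC, mul_assoc]

theorem Maps.mem_cyl {f : Pt Y → Pt Y} {U : Clopens Y} {p q : List Bool} {g : Q}
    (h : Maps f U p g q) {z : Pt Y} (hz : z ∈ cyl (smulC g U : Set Y) q) :
    ∃ w ∈ cyl (U : Set Y) p, f w = z := by
  obtain ⟨z1, z2⟩ := z
  obtain ⟨hz1, s, rfl : z2 = app q s⟩ := hz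
  exact ⟨(g⁻¹ • z1, app p s), mk_mem_cyl hz1 s, by rw [h _ hz1, smul_inv_smul]⟩

omit [ContinuousConstSMul Q Y] in
theorem Maps.factor [ContinuousConstSMul Q Y] {f f' : Pt Y → Pt Y} {U : Clopens Y}
    {p q r : List Bool} {g k : Q} (h : Maps (f' ∘ f) U p k r) (h' : Maps f U p g q) :
    Maps f' (smulC g U) q (k * g⁻¹) r := by
  intro y hy s
  have := h (g⁻¹ • y) hy s
  rw [Function.comp_apply, h' (g⁻¹ • y) hy s, smul_inv_smul] at this
  rw [this, mul_smul]

namespace BoxSystem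

variable (S : BoxSystem Y Q G)

theorem valid_image (x : G) {b : Box Y Q} (hb : b.Valid) {g1 g2 : Q} {q1 q2 : List Bool}
    (h1 : Maps (S.toPerm x) b.U b.p g1 q1) (h2 : Maps (S.toPerm x) (smulC b.g b.U) b.q g2 q2) :
    (b.image g1 g2 q1 q2).Valid := by
  refine Set.disjoint_left.2 fun z hd hc => ?_
  rw [Box.image_cod] at hc
  obtain ⟨w, hw, e⟩ := h1.mem_cyl hd
  obtain ⟨w', hw', e'⟩ := h2.mem_cyl hc
  exact Set.disjoint_left.1 hb hw ((S.toPerm x).injective (e'.trans e.symm) ▸ hw')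

/-- Conjugation by `x` carries box elements to those of the image boxes. -/
def ConjGood (x : G) : Prop :=
  ∀ b : Box Y Q, b.Valid → ∀ g1 g2 q1 q2, Maps (S.toPerm x) b.U b.p g1 q1 →
    Maps (S.toPerm x) (smulC b.g b.U) b.q g2 q2 →
    x * S.el b * x⁻¹ = S.el (b.image g1 g2 q1 q2)

/-- The conjugation identity may be checked on small pieces. -/
theorem conj_of_local [CompactSpace Y] {x : G} {b : Box Y Q} (hb : b.Valid) {g1 g2 : Q}
    {q1 q2 : List Bool} (h1 : Maps (S.toPerm x) b.U b.p g1 q1)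
    (h2 : Maps (S.toPerm x) (smulC b.g b.U) b.q g2 q2)
    (hloc : ∀ y ∈ b.U, ∀ s, ∃ (V : Clopens Y) (n : ℕ), y ∈ V ∧ V ≤ b.U ∧
      ∀ U ≤ V, ∀ r, stake n s <+: r →
        x * S.el (b.sub U r) * x⁻¹ = S.el ((b.image g1 g2 q1 q2).sub (smulC g1 U) r)) :
    x * S.el b * x⁻¹ = S.el (b.image g1 g2 q1 q2) := by
  have hi := S.valid_image x hb h1 h2
  have key : ∀ U r, U ≤ b.U →
      x * S.el (b.sub U r) * x⁻¹ = S.el ((b.image g1 g2 q1 q2).sub (smulC g1 U) r) := by
    refine box_induction (fun U r => U ≤ b.U →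
      x * S.el (b.sub U r) * x⁻¹ = S.el ((b.image g1 g2 q1 q2).sub (smulC g1 U) r)) ?_ ?_ ?_ ?_
    · intro r _
      simp [Box.sub, S.el_bot]
    · intro U V r hd hU hV hle
      have hUV := sup_le_iff.1 hle
      have hd' : Disjoint (smulC g1 U) (smulC g1 V) := by
        rw [disjoint_iff, ← smulC_inf, disjoint_iff.1 hd, smulC_bot]
      rw [Box.sub, Box.sub, smulC_sup,
        S.el_sup U V _ _ _ hd (hb.sub hle r),
        S.el_sup _ _ _ _ _ hd' (hi.sub (sup_le (smulC_mono g1 hUV.1) (smulC_mono g1 hUV.2)) r),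
        ← conj_mul]
      exact congrArg₂ (· * ·) (hU hUV.1) (hV hUV.2)
    · intro U r h0 h1' hle
      rw [Box.sub, Box.sub, S.el_word U _ _ _ (hb.sub hle r),
        S.el_word (smulC g1 U) _ _ _ (hi.sub (smulC_mono g1 hle) r), ← conj_mul]
      simp only [List.append_assoc]
      exact congrArg₂ (· * ·) (h0 hle) (h1' hle)
    · intro y s
      by_cases hy : y ∈ b.U
      · obtain ⟨V, n, hV, -, hP⟩ := hloc y hy s
        exact ⟨V, n, hV, fun U hU r hr _ => hP U hU r hr⟩
      · refine ⟨b.Uᶜ, 0, hy, fun U hU r _ hle => ?_⟩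
        have : U = ⊥ := le_bot_iff.1 ((le_inf hle hU).trans (le_of_eq inf_compl_eq_bot))
        simp [this, Box.sub, S.el_bot]
  have h := key b.U [] le_rfl
  simp only [Box.sub, List.append_nil] at h
  exact h

theorem ConjGood.one (hE : Effective Y Q) : S.ConjGood 1 := by
  intro b _ g1 g2 q1 q2 h1 h2
  by_cases hU : b.U = ⊥
  · obtain ⟨U, g, p, q⟩ := b
    simp only at hU
    subst hU
    simp [Box.image, S.el_bot]
  · have e : (S.toPerm 1 : Pt Y → Pt Y) = id := by rw [map_one]; rfl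
    rw [e] at h1 h2
    obtain ⟨rfl, rfl⟩ := h1.unique hE hU (maps_id b.U b.p)
    obtain ⟨rfl, rfl⟩ := h2.unique hE (fun h => hU (smulC_eq_bot.1 h)) (maps_id _ b.q)
    simp [Box.image]

theorem ConjGood.mul [CompactSpace Y] {x z : G} (hx : S.ConjGood x) (hz : S.ConjGood z) :
    S.ConjGood (x * z) := by
  intro b hb g1 g2 q1 q2 h1 h2
  refine S.conj_of_local hb h1 h2 fun y hy s => ?_
  obtain ⟨U1, n1, ga, qa, hy1, hA⟩ := S.affine z y (app b.p s)
  obtain ⟨U2, n2, gc, qc, hy2, hC⟩ := S.affine z (b.g • y) (app b.q s)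
  refine ⟨b.U ⊓ U1 ⊓ smulC b.g⁻¹ U2, max n1 n2, ⟨⟨hy, hy1⟩, by simpa using hy2⟩,
    inf_le_left.trans inf_le_left, fun U hU r hr => ?_⟩
  have hUb : U ≤ b.U := hU.trans (inf_le_left.trans inf_le_left)
  have deep : ∀ (p : List Bool) (n : ℕ), n ≤ max n1 n2 → stake n (app p s) <+: p ++ r := by
    intro p n hn
    obtain ⟨t, rfl⟩ := hr
    have e : app p s =
        app (p ++ stake (max n1 n2) s) (sdrop (max n1 n2) s) := by rw [app_append, app_stake]
    obtain ⟨w, hw, -⟩ := app_eq_prefix (p := stake n (app p s))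
      (q := p ++ stake (max n1 n2) s) (by simp; omega) ((app_stake n _).trans e)
    exact ⟨w ++ t, by rw [← List.append_assoc, ← hw, List.append_assoc]⟩
  obtain ⟨r1, hr1⟩ := deep b.p n1 (le_max_left _ _)
  obtain ⟨r2, hr2⟩ := deep b.q n2 (le_max_right _ _)
  have hA' : Maps (S.toPerm z) U (b.p ++ r) ga (qa ++ r1) :=
    hr1 ▸ hA.mono (hU.trans (inf_le_left.trans inf_le_right)) r1
  have hC' : Maps (S.toPerm z) (smulC b.g U) (b.q ++ r) gc (qc ++ r2) := by
    refine hr2 ▸ hC.mono (fun w hw => ?_) r2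
    simpa using (hU hw).2
  have h1' := h1.mono hUb r
  have h2' := h2.mono (smulC_mono b.g hUb) r
  rw [map_mul, Equiv.Perm.coe_mul] at h1' h2'
  have hv : (b.sub U r).Valid := hb.sub hUb r
  have ez := hz (b.sub U r) hv ga gc _ _ hA' hC'
  have ex := hx _ (S.valid_image z hv hA' hC') (g1 * ga⁻¹) (g2 * gc⁻¹) (q1 ++ r) (q2 ++ r)
    (h1'.factor hA') ?_
  · calc x * z * S.el (b.sub U r) * (x * z)⁻¹
        = x * (z * S.el (b.sub U r) * z⁻¹) * x⁻¹ := by group
      _ = _ := by rw [ez, ex]; congr 1; simp [Box.image, Box.sub, smulC_smulC, mul_assoc]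
  · have := h2'.factor hC'
    simpa [Box.image, Box.sub, smulC_smulC, mul_assoc] using this

theorem ConjGood.of_long {c : Box Y Q} (hc : c.Valid)
    (h : ∀ b : Bool, S.ConjGood (S.el ⟨c.U, c.g, c.p ++ [b], c.q ++ [b]⟩))
    [CompactSpace Y] : S.ConjGood (S.el c) := by
  rw [show c = ⟨c.U, c.g, c.p, c.q⟩ from rfl, S.el_word c.U c.g c.p c.q hc]
  exact (h false).mul S (h true)

/-- Products of box elements supported in `A`. -/
def within (A : Set (Pt Y)) : Subgroup G :=
  Subgroup.closure {x | ∃ d : Box Y Q, d.Valid ∧ d.supp ⊆ A ∧ x = S.el d}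

theorem commute_within {A : Set (Pt Y)} {R : G} (hR : R ∈ S.within A) {e : Box Y Q} (he : e.Valid)
    (hd : Disjoint e.supp A) : Commute R (S.el e) := by
  induction hR using Subgroup.closure_induction with
  | mem x hx =>
    obtain ⟨d, hd1, hd2, rfl⟩ := hx
    exact S.el_comm d e hd1 he (Set.disjoint_of_subset_left hd2 hd.symm)
  | one => exact Commute.one_left _
  | mul x y _ _ hx hy => exact hx.mul_left hy
  | inv x _ hx => exact hx.inv_left

theorem el_mem_within {A : Set (Pt Y)} {d : Box Y Q} (hd : d.Valid) (h : d.supp ⊆ A) :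
    S.el d ∈ S.within A := Subgroup.subset_closure ⟨d, hd, h, rfl⟩

theorem within_mono {A B : Set (Pt Y)} (h : A ⊆ B) : S.within A ≤ S.within B :=
  Subgroup.closure_mono fun _ ⟨d, h1, h2, e⟩ => ⟨d, h1, h2.trans h, e⟩

/-- Disjoint parts of a box have disjoint supports. -/
theorem sub_disjoint {c : Box Y Q} (hc : c.Valid) {V W : Clopens Y} (hV : V ≤ c.U) (hW : W ≤ c.U)
    {r r' : List Bool} (h : Disjoint (V : Set Y) W ∨ ¬r <+: r' ∧ ¬r' <+: r) :
    Disjoint (c.sub V r).supp (c.sub W r').supp := by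
  have w : ∀ p : List Bool, (¬r <+: r' ∧ ¬r' <+: r) →
      (¬p ++ r <+: p ++ r' ∧ ¬p ++ r' <+: p ++ r) := by
    intro p h
    rwa [List.prefix_append_right_inj, List.prefix_append_right_inj]
  refine Set.disjoint_union_left.2 ⟨Set.disjoint_union_right.2 ⟨?_, ?_⟩,
    Set.disjoint_union_right.2 ⟨?_, ?_⟩⟩
  · exact disjoint_cyl_iff.2 (h.imp id (w _))
  · exact Set.disjoint_of_subset (Box.sub_dom_subset hV r) (Box.sub_cod_subset hW r') hc
  · exact Set.disjoint_of_subset (Box.sub_cod_subset hV r) (Box.sub_dom_subset hW r') hc.symm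
  · refine disjoint_cyl_iff.2 (h.imp (fun h => ?_) (w _))
    exact h.preimage _

theorem peel {c : Box Y Q} (hc : c.Valid) {V : Clopens Y} (hV : V ≤ c.U) :
    ∀ r, ∃ R ∈ S.within (c.supp \ (c.sub V r).supp), S.el c = S.el (c.sub V r) * R := by
  intro r
  induction r using List.reverseRecOn with
  | nil =>
    have hW : c.U ⊓ Vᶜ ≤ c.U := inf_le_left
    have hdj : Disjoint V (c.U ⊓ Vᶜ) := disjoint_compl_right.mono_right inf_le_right
    have e : c.U = V ⊔ c.U ⊓ Vᶜ := by
      rw [sup_inf_left, sup_compl_eq_top, inf_top_eq, sup_eq_right.2 hV]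
    refine ⟨S.el (c.sub (c.U ⊓ Vᶜ) []), S.el_mem_within (hc.sub hW [])
      (Set.subset_sdiff.2 ⟨Box.sub_supp_subset hW [], sub_disjoint hc hW hV (Or.inl
        (Set.disjoint_left.2 fun _ h1 h2 => h1.2 h2))⟩), ?_⟩
    have := S.el_sup V (c.U ⊓ Vᶜ) c.g c.p c.q hdj (by rw [← e]; exact hc)
    rw [← e] at this
    simpa [Box.sub] using this
  | append_singleton r b ih =>
    obtain ⟨R, hR, e⟩ := ih
    have hsub : (c.sub V (r ++ [b])).supp ⊆ (c.sub V r).supp := by
      refine Set.union_subset_union ?_ ?_ <;>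
        exact cyl_subset Set.Subset.rfl ⟨[b], by simp [Box.sub]⟩
    have hw : S.el (c.sub V r) = S.el (c.sub V (r ++ [b])) * S.el (c.sub V (r ++ [!b])) := by
      have hvv := hc.sub hV r
      have := S.el_word V c.g (c.p ++ r) (c.q ++ r) hvv
      simp only [List.append_assoc] at this
      rw [Box.sub, Box.sub, Box.sub, this]
      cases b
      · rfl
      · exact (S.el_comm _ _ (hc.sub hV _) (hc.sub hV _)
          (sub_disjoint (c := c) hc hV hV (Or.inr (by simp)))).eq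
    refine ⟨S.el (c.sub V (r ++ [!b])) * R, mul_mem
      (S.el_mem_within (hc.sub hV _) (Set.subset_sdiff.2 ⟨Box.sub_supp_subset hV _, ?_⟩))
      (S.within_mono (Set.sdiff_subset_sdiff_right hsub) hR), ?_⟩
    · exact sub_disjoint hc hV hV (Or.inr (by cases b <;> simp))
    · rw [e, hw, mul_assoc]

/-- One side inside the first side of `c`, the other outside of `c`. -/
theorem conj_in_out {b c : Box Y Q} (hb : b.Valid) (hc : c.Valid) (hU : b.U ≤ c.U) {r : List Bool}
    (hp : b.p = c.p ++ r) (hout : Disjoint b.cod c.supp) :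
    S.el c * S.el b * (S.el c)⁻¹ = S.el (b.image c.g 1 (c.q ++ r) b.q) := by
  obtain ⟨R, hR, e⟩ := S.peel hc hU r
  have hdom : (c.sub b.U r).dom = b.dom := by simp [Box.sub, Box.dom, hp]
  have hcA := hc.sub hU r
  have hsA := Box.sub_supp_subset (b := c) hU r
  have c1 : Commute R (S.el b) := by
    refine S.commute_within hR hb (Set.disjoint_union_left.2 ⟨?_, ?_⟩)
    · rw [← hdom]; exact Set.disjoint_left.2 fun _ h1 h2 => h2.2 (Or.inl h1)
    · exact hout.mono_right Set.sdiff_subset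
  have tri := S.el_tri (smulC c.g b.U) c.g⁻¹ b.g (c.q ++ r) b.p b.q ?_ ?_ ?_
  · rw [smulC_smulC, inv_mul_cancel, smulC_one] at tri
    have hfl : S.el ⟨smulC c.g b.U, c.g⁻¹, c.q ++ r, b.p⟩ = S.el (c.sub b.U r) := by
      rw [hp]; exact S.el_symm (c.sub b.U r) hcA
    rw [hfl] at tri
    rw [e, mul_inv_rev]
    calc S.el (c.sub b.U r) * R * S.el b * (R⁻¹ * (S.el (c.sub b.U r))⁻¹)
        = S.el (c.sub b.U r) * (R * S.el b * R⁻¹) * (S.el (c.sub b.U r))⁻¹ := by group
      _ = _ := by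
        rw [c1.eq, mul_inv_cancel_right, S.el_inv hcA, tri]
        simp [Box.image]
  · simp only [smulC_smulC, inv_mul_cancel, smulC_one]
    have := hcA.symm
    rw [Box.dom, ← Box.dom, hdom] at this
    exact this
  · simp only [smulC_smulC, inv_mul_cancel, smulC_one, inv_mul_cancel_right]
    exact hb
  · simp only [smulC_smulC, inv_mul_cancel_right]
    exact (hout.mono_right ((Set.subset_union_right).trans hsA)).symm

theorem image_flip (b : Box Y Q) (g1 g2 : Q) (q1 q2 : List Bool) :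
    b.flip.image g2 g1 q2 q1 = (b.image g1 g2 q1 q2).flip := by
  simp [Box.image, Box.flip, smulC_smulC, mul_assoc]

/-- Both sides inside `c`, through a spare cone. -/
theorem conj_in_in {b c1 c2 : Box Y Q} {x : G} (hb : b.Valid) (h1 : c1.Valid) (h2 : c2.Valid)
    (e1 : S.el c1 = x) (e2 : S.el c2 = x) (hs : c1.supp = c2.supp)
    (hU1 : b.U ≤ c1.U) {r1 : List Bool} (hp : b.p = c1.p ++ r1)
    (hU2 : smulC b.g b.U ≤ c2.U) {r2 : List Bool} (hq : b.q = c2.p ++ r2) {e : List Bool}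
    (he : Disjoint (cyl (Set.univ : Set Y) e) c1.supp) :
    x * S.el b * x⁻¹ = S.el (b.image c1.g c2.g (c1.q ++ r1) (c2.q ++ r2)) := by
  have hdom : b.dom ⊆ c1.supp :=
    (cyl_subset (fun _ hy => hU1 hy) ⟨r1, hp.symm⟩).trans Set.subset_union_left
  have hcod : b.cod ⊆ c1.supp :=
    hs ▸ (cyl_subset (fun _ hy => hU2 hy) ⟨r2, hq.symm⟩).trans Set.subset_union_left
  have hE : ∀ V : Clopens Y, Disjoint (cyl (V : Set Y) e) c1.supp := fun V =>
    he.mono_left (cyl_mono (Set.subset_univ _) e)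
  have vA : Box.Valid (⟨b.U, (1 : Q), b.p, e⟩ : Box Y Q) := by
    simpa [Box.Valid, Box.dom, Box.cod] using ((hE b.U).mono_right hdom).symm
  have vB : Box.Valid (⟨smulC b.g b.U, b.g⁻¹, b.q, e⟩ : Box Y Q) := by
    simpa [Box.Valid, Box.dom, Box.cod, smulC_smulC] using ((hE b.U).mono_right hcod).symm
  have sA := S.conj_in_out vA h1 hU1 hp (by
    simp only [Box.cod, smulC_one]; exact hE _)
  have sB := S.conj_in_out vB h2 hU2 hq (by
    simp only [Box.cod, smulC_smulC, inv_mul_cancel, smulC_one]; exact hs ▸ hE _)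
  rw [e1] at sA
  rw [e2] at sB
  have eB : S.el ⟨b.U, b.g, e, b.q⟩ = S.el ⟨smulC b.g b.U, b.g⁻¹, b.q, e⟩ := by
    have := S.el_symm _ vB
    simpa [smulC_smulC] using this
  have tri := S.el_tri b.U 1 b.g b.p e b.q (by simpa [Box.Valid, Box.dom, Box.cod] using vA)
    (by simpa [Box.cod] using (hE b.U).mono_right hcod) (by rw [mul_one]; exact hb)
  rw [smulC_one, mul_one, eB] at tri
  have sB' : x * S.el ⟨smulC b.g b.U, b.g⁻¹, b.q, e⟩ * x⁻¹ =
      S.el ⟨b.U, c2.g * b.g, e, c2.q ++ r2⟩ := by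
    rw [sB]
    have hq' : Box.Valid
        ((⟨smulC b.g b.U, b.g⁻¹, b.q, e⟩ : Box Y Q).image c2.g 1 (c2.q ++ r2) e) := by
      rw [Box.Valid, Box.image_cod]
      simp only [Box.dom, Box.image, smulC_one, smulC_smulC, inv_mul_cancel]
      refine ((hE b.U).mono_right ?_).symm
      rw [hs]
      exact (cyl_subset (fun w hw => smulC_mono c2.g hU2 (by
        rw [smulC_smulC]; simpa [mul_assoc] using hw)) ⟨r2, rfl⟩).trans Set.subset_union_right
    rw [← S.el_symm _ hq']
    simp [Box.image, smulC_smulC, mul_assoc]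
  have tri' := S.el_tri (smulC c1.g b.U) c1.g⁻¹ (c2.g * b.g) (c1.q ++ r1) e (c2.q ++ r2)
    ?_ ?_ ?_
  · rw [show b = ⟨b.U, b.g, b.p, b.q⟩ from rfl, ← tri, ← conj_mul, ← conj_mul, sA, sB']
    simp only [Box.image, one_mul]
    rw [smulC_smulC, inv_mul_cancel, smulC_one] at tri'
    exact tri'
  · simp only [smulC_smulC, inv_mul_cancel, smulC_one]
    exact ((hE b.U).mono_right ((cyl_subset (fun _ hy => smulC_mono c1.g hU1 hy) ⟨r1, rfl⟩).trans
      Set.subset_union_right)).symm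
  · simp only [smulC_smulC, inv_mul_cancel, smulC_one, inv_mul_cancel_right]
    exact (hE b.U).mono_right (hs ▸ (cyl_subset (fun w hw => smulC_mono c2.g hU2 (by
        rw [smulC_smulC]; exact hw)) ⟨r2, rfl⟩).trans Set.subset_union_right)
  · have hx1 : Maps (S.toPerm x) b.U b.p c1.g (c1.q ++ r1) := by
      rw [hp, ← e1, funext (S.toPerm_el c1 h1)]
      exact (maps_move c1).mono hU1 r1
    have hx2 : Maps (S.toPerm x) (smulC b.g b.U) b.q c2.g (c2.q ++ r2) := by
      rw [hq, ← e2, funext (S.toPerm_el c2 h2)]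
      exact (maps_move c2).mono hU2 r2
    have := S.valid_image x hb hx1 hx2
    rw [Box.Valid, Box.image_cod] at this
    simpa [Box.dom, Box.image, smulC_smulC, mul_assoc] using this

theorem exists_spare (p q : List Bool) (hp : 2 ≤ p.length) (hq : 2 ≤ q.length) :
    ∃ e : List Bool, (¬e <+: p ∧ ¬p <+: e) ∧ ¬e <+: q ∧ ¬q <+: e := by
  obtain ⟨a, a', p, rfl⟩ : ∃ a a' p', p = a :: a' :: p' := by
    match p, hp with
    | a :: a' :: p, _ => exact ⟨a, a', p, rfl⟩
  obtain ⟨b, b', q, rfl⟩ : ∃ b b' q', q = b :: b' :: q' := by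
    match q, hq with
    | b :: b' :: q, _ => exact ⟨b, b', q, rfl⟩
  have : ∃ u v : Bool, ¬(u = a ∧ v = a') ∧ ¬(u = b ∧ v = b') := by
    clear hp hq
    revert a a' b b'; decide
  obtain ⟨u, v, h1, h2⟩ := this
  refine ⟨[u, v], ⟨?_, ?_⟩, ?_, ?_⟩ <;> simp only [List.cons_prefix_cons] <;> grind

theorem conjGood_el_long (hE : Effective Y Q) [CompactSpace Y] {c : Box Y Q} (hc : c.Valid)
    (hp : 2 ≤ c.p.length) (hq : 2 ≤ c.q.length) : S.ConjGood (S.el c) := by
  intro b hb g1 g2 q1 q2 h1 h2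
  refine S.conj_of_local hb h1 h2 fun y hy s => ?_
  obtain ⟨W1, n1, hW1, k1⟩ := locate c y b.p s
  obtain ⟨W2, n2, hW2, k2⟩ := locate c (b.g • y) b.q s
  refine ⟨b.U ⊓ W1 ⊓ smulC b.g⁻¹ W2, max n1 n2, ⟨⟨hy, hW1⟩, by simpa using hW2⟩,
    inf_le_left.trans inf_le_left, fun U hU r hr => ?_⟩
  have hUb : U ≤ b.U := hU.trans (inf_le_left.trans inf_le_left)
  have hv := hb.sub hUb r
  have hr' : ∀ m ≤ max n1 n2, stake m s <+: r := fun m hm =>
    (exists_app (by simpa using hm) (app_stake m s).symm).trans hr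
  have d := k1 U (hU.trans (inf_le_left.trans inf_le_right)) r (hr' _ (le_max_left _ _))
  have e := k2 (smulC b.g U) (fun w hw => by simpa using (hU hw).2) r (hr' _ (le_max_right _ _))
  obtain ⟨ee, ⟨ea, ea'⟩, eb, eb'⟩ := exists_spare c.p c.q hp hq
  have hsp : Disjoint (cyl (Set.univ : Set Y) ee) c.supp :=
    Set.disjoint_union_right.2 ⟨disjoint_cyl_word ea ea' _ _, disjoint_cyl_word eb eb' _ _⟩
  have hfl : S.el c.flip = S.el c := S.el_symm c hc
  have hM1 := h1.mono hUb r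
  have hM2 := h2.mono (smulC_mono b.g hUb) r
  -- any correct computation agrees with the wanted one
  have fin : ∀ g1' g2' q1' q2', Maps (S.toPerm (S.el c)) U (b.p ++ r) g1' q1' →
      Maps (S.toPerm (S.el c)) (smulC b.g U) (b.q ++ r) g2' q2' →
      S.el c * S.el (b.sub U r) * (S.el c)⁻¹ = S.el ((b.sub U r).image g1' g2' q1' q2') →
      S.el c * S.el (b.sub U r) * (S.el c)⁻¹ =
        S.el ((b.image g1 g2 q1 q2).sub (smulC g1 U) r) := by
    intro g1' g2' q1' q2' m1 m2 h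
    by_cases hUe : U = ⊥
    · simp [hUe, Box.sub, S.el_bot]
    · obtain ⟨rfl, rfl⟩ := hM1.unique hE hUe m1
      obtain ⟨rfl, rfl⟩ := hM2.unique hE (fun h => hUe (smulC_eq_bot.1 h)) m2
      exact h
  have mout : ∀ {V : Clopens Y} {a : List Bool}, Disjoint (cyl (V : Set Y) a) c.supp →
      Maps (S.toPerm (S.el c)) V a (1 : Q) a := fun {V a} h => maps_of_fix fun z hz => by
    rw [S.toPerm_el c hc]; exact Box.move_out (Set.disjoint_left.1 h hz)
  have min' : ∀ {c' : Box Y Q}, c'.Valid → S.el c' = S.el c → ∀ {V : Clopens Y} {t : List Bool},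
      V ≤ c'.U → Maps (S.toPerm (S.el c)) V (c'.p ++ t) c'.g (c'.q ++ t) := fun {c'} hc' he {V t} hV => by
    rw [← he, funext (S.toPerm_el c' hc')]; exact (maps_move c').mono hV t
  -- normalise each side: inside some `c'` equal to `c`, or outside
  have norm : ∀ {V : Clopens Y} {a : List Bool},
      ((V ≤ c.U ∧ c.p <+: a) ∨ (V ≤ smulC c.g c.U ∧ c.q <+: a) ∨
        Disjoint (cyl (V : Set Y) a) c.supp) →
      (∃ c' : Box Y Q, ∃ t, c'.Valid ∧ S.el c' = S.el c ∧ c'.supp = c.supp ∧ V ≤ c'.U ∧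
        a = c'.p ++ t) ∨ Disjoint (cyl (V : Set Y) a) c.supp := by
    rintro V a (⟨hV, t, ht⟩ | ⟨hV, t, ht⟩ | h)
    · exact Or.inl ⟨c, t, hc, rfl, rfl, hV, ht.symm⟩
    · exact Or.inl ⟨c.flip, t, hc.flip, hfl, c.flip_supp, hV, ht.symm⟩
    · exact Or.inr h
  rcases norm d with ⟨c1, t1, v1, el1, s1, u1, p1⟩ | d' <;>
    rcases norm e with ⟨c2, t2, v2, el2, s2, u2, p2⟩ | e'
  · refine fin _ _ _ _ (p1 ▸ min' v1 el1 u1) (p2 ▸ min' v2 el2 u2) ?_
    exact S.conj_in_in hv v1 v2 el1 el2 (s1.trans s2.symm) u1 p1 u2 p2 (s1.symm ▸ hsp)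
  · refine fin _ _ _ _ (p1 ▸ min' v1 el1 u1) (mout e') ?_
    rw [← el1]
    exact S.conj_in_out hv v1 u1 p1 (s1.symm ▸ e')
  · refine fin _ _ _ _ (mout d') (p2 ▸ min' v2 el2 u2) ?_
    have hd' : Disjoint (b.sub U r).flip.cod c2.supp := by rw [Box.flip_cod, s2]; exact d'
    have h := S.conj_in_out hv.flip v2 u2 p2 hd'
    rw [show S.el (b.sub U r).flip = S.el (b.sub U r) from S.el_symm _ hv, el2] at h
    rw [h]
    have hvi : ((b.sub U r).image 1 c2.g (b.p ++ r) (c2.q ++ t2)).Valid :=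
      S.valid_image (S.el c) hv (mout d') (by rw [show (b.sub U r).q = c2.p ++ t2 from p2]; exact min' v2 el2 u2)
    rw [← S.el_symm _ hvi]
    exact congrArg S.el (image_flip _ _ _ _ _)
  · refine fin _ _ _ _ (mout d') (mout e') ?_
    rw [(S.el_comm c (b.sub U r) hc hv (Set.disjoint_union_right.2 ⟨d'.symm, e'.symm⟩)).eq,
      mul_inv_cancel_right]
    congr 1
    simp [Box.image, Box.sub]

theorem conjGood_el (hE : Effective Y Q) [CompactSpace Y] {c : Box Y Q} (hc : c.Valid) :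
    S.ConjGood (S.el c) := by
  have hsplit : ∀ {c : Box Y Q}, c.Valid → ∀ b : Bool,
      Box.Valid (⟨c.U, c.g, c.p ++ [b], c.q ++ [b]⟩ : Box Y Q) := fun h b => h.sub le_rfl [b]
  refine ConjGood.of_long S hc fun b => ConjGood.of_long S (hsplit hc b) fun b' => ?_
  exact S.conjGood_el_long hE (hsplit (hsplit hc b) b') (by simp) (by simp)

/-- Conjugation by any element carries a box element to that of the image box. -/
theorem conj (hE : Effective Y Q) [CompactSpace Y] (x : G) : S.ConjGood x := by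
  obtain ⟨l, hl, rfl⟩ := S.exists_word x
  induction l with
  | nil => simpa using ConjGood.one S hE
  | cons b l ih =>
    simp only [List.forall_mem_cons] at hl
    rw [List.map_cons, List.prod_cons]
    exact (S.conjGood_el hE hl.1).mul S (ih hl.2)

/-- Elements acting trivially are central. -/
theorem commute_of_toPerm_eq_one (hE : Effective Y Q) [CompactSpace Y] {x : G}
    (hx : S.toPerm x = 1) (y : G) : Commute x y := by
  obtain ⟨l, hl, rfl⟩ := S.exists_word y
  refine Commute.list_prod_right _ _ fun z hz => ?_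
  obtain ⟨b, hb, rfl⟩ := List.mem_map.1 hz
  have e : (S.toPerm x : Pt Y → Pt Y) = id := by rw [hx]; rfl
  have := S.conj hE x b (hl b hb) 1 1 b.p b.q (e ▸ maps_id _ _) (e ▸ maps_id _ _)
  rw [show b.image 1 1 b.p b.q = b by simp [Box.image]] at this
  exact mul_inv_eq_iff_eq_mul.1 this

end BoxSystem

end Vale.Agent.P193.Fp
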