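import Vale.Agent.P193.Fp.Basic

/-!
# P193: local affinity and induction over boxes
-/

namespace Vale.Agent.P193.Fp

open TopologicalSpace

theorem exists_app {p : List Bool} {s : ℕ → Bool} {n : ℕ} (hn : p.length ≤ n) {t : ℕ → Bool}
    (e : s = app p t) : p <+: stake n s := by
  obtain ⟨r, hr, -⟩ := app_eq_prefix (q := stake n s) (by simpa using hn)
    (e.symm.trans (app_stake n s).symm)
  exact ⟨r, hr.symm⟩

theorem isOpen_app_set : ∀ p : List Bool, IsOpen {s : ℕ → Bool | ∃ t, s = app p t}
  | [] => by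
    rw [show {s : ℕ → Bool | ∃ t, s = app [] t} = Set.univ from
      Set.eq_univ_of_forall fun s => ⟨s, rfl⟩]
    exact isOpen_univ
  | b :: p => by
    have hd : Continuous fun s : ℕ → Bool => sdrop 1 s :=
      continuous_pi fun k => continuous_apply (1 + k)
    have e : {s : ℕ → Bool | ∃ t, s = app (b :: p) t} =
        (fun s : ℕ → Bool => s 0) ⁻¹' {b} ∩
          (fun s => sdrop 1 s) ⁻¹' {s | ∃ t, s = app p t} := by
      ext s
      refine ⟨?_, ?_⟩
      · rintro ⟨t, rfl⟩
        refine ⟨rfl, t, ?_⟩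
        funext k; simp [sdrop, Nat.add_comm 1 k, scons]
      · rintro ⟨h0, t, ht⟩
        refine ⟨t, ?_⟩
        rw [app_cons, ← ht, ← (show s 0 = b from h0), scons_eta]
    rw [e]
    exact ((continuous_apply 0).isOpen_preimage _ (isOpen_discrete _)).inter
      (hd.isOpen_preimage _ (isOpen_app_set p))

variable {Y Q : Type*} [TopologicalSpace Y]

theorem isOpen_cyl (U : Clopens Y) (p : List Bool) : IsOpen (cyl (U : Set Y) p) :=
  U.isClopen.isOpen.prod (isOpen_app_set p)

/-- A property of boxes that survives both kinds of splitting and holds for all small boxes holds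
for every box. -/
theorem box_induction [CompactSpace Y] (P : Clopens Y → List Bool → Prop)
    (hbot : ∀ p, P ⊥ p)
    (hsup : ∀ U V p, Disjoint U V → P U p → P V p → P (U ⊔ V) p)
    (hword : ∀ U p, P U (p ++ [false]) → P U (p ++ [true]) → P U p)
    (hloc : ∀ y s, ∃ (V : Clopens Y) (n : ℕ), y ∈ V ∧
      ∀ U ≤ V, ∀ r, stake n s <+: r → P U r) :
    ∀ U p, P U p := by
  classical
  choose V n hmem hP using fun z : Pt Y => hloc z.1 z.2
  obtain ⟨t, ht⟩ := isCompact_univ.elim_finite_subcover
    (fun z : Pt Y => cyl (V z : Set Y) (stake (n z) z.2)) (fun z => isOpen_cyl _ _)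
    fun z _ => Set.mem_iUnion.2 ⟨z, hmem z, sdrop (n z) z.2, (app_stake _ _).symm⟩
  have claim : ∀ (l : Finset (Pt Y)) (U : Clopens Y) (p : List Bool),
      (∀ z ∈ l, n z ≤ p.length) →
      cyl (U : Set Y) p ⊆ ⋃ z ∈ l, cyl (V z : Set Y) (stake (n z) z.2) → P U p := by
    intro l
    induction l using Finset.induction_on with
    | empty =>
      intro U p _ hcov
      have : U = ⊥ := by
        by_contra hU
        obtain ⟨y, hy⟩ := clopens_ne_bot.1 hU
        simpa using hcov (mk_mem_cyl hy fun _ => false)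
      rw [this]; exact hbot p
    | @insert z l _ ih =>
      intro U p hlen hcov
      have hl : ∀ x ∈ l, n x ≤ p.length := fun x hx => hlen x (Finset.mem_insert_of_mem hx)
      have hz := hlen z (Finset.mem_insert_self z l)
      by_cases hpre : stake (n z) z.2 <+: p
      · rw [show U = U ⊓ V z ⊔ U ⊓ (V z)ᶜ by rw [← inf_sup_left, sup_compl_eq_top, inf_top_eq]]
        refine hsup _ _ _ ((disjoint_compl_right.mono inf_le_right inf_le_right))
          (hP z _ inf_le_right _ hpre) (ih _ _ hl ?_)
        rintro w ⟨hw, s, es⟩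
        obtain ⟨hw1, hw2⟩ := hw
        have := hcov (show w ∈ cyl (U : Set Y) p from ⟨hw1, s, es⟩)
        rw [Finset.set_biUnion_insert] at this
        rcases this with h | h
        · exact absurd h.1 hw2
        · exact h
      · refine ih U p hl fun w hw => ?_
        have := hcov hw
        rw [Finset.set_biUnion_insert] at this
        rcases this with h | h
        · exfalso
          obtain ⟨-, s, es⟩ := hw
          obtain ⟨-, s', es'⟩ := h
          obtain ⟨r, hr, -⟩ :=
            app_eq_prefix (q := p) (by simpa using hz) (es'.symm.trans es)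
          exact hpre ⟨r, hr.symm⟩
        · exact h
  set D := t.sup n with hD
  intro U p
  induction h : D - p.length generalizing p with
  | zero =>
    exact claim t U p (fun z hz => by have := Finset.le_sup (f := n) hz; omega)
      fun w _ => ht (Set.mem_univ w)
  | succ k ih =>
    exact hword U p (ih _ (by simp; omega)) (ih _ (by simp; omega))

variable [Group Q] [MulAction Q Y] [ContinuousConstSMul Q Y]
  {G : Type*} [Group G] (S : BoxSystem Y Q G)

namespace BoxSystem

theorem el_bot (g : Q) (p q : List Bool) : S.el ⟨⊥, g, p, q⟩ = 1 := by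
  have h := S.el_sup ⊥ ⊥ g p q disjoint_bot_left (by simpa using Box.valid_bot g p q)
  rw [bot_sup_eq] at h
  exact left_eq_mul.1 h

theorem el_inv {b : Box Y Q} (h : b.Valid) : (S.el b)⁻¹ = S.el b :=
  inv_eq_of_mul_eq_one_right (S.el_sq b h)

theorem exists_word (x : G) :
    ∃ l : List (Box Y Q), (∀ b ∈ l, b.Valid) ∧ (l.map S.el).prod = x := by
  have hx : x ∈ Subgroup.closure {x | ∃ b, b.Valid ∧ x = S.el b} := S.generated ▸ trivial
  induction hx using Subgroup.closure_induction with
  | mem x hx =>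
    obtain ⟨b, hb, rfl⟩ := hx
    exact ⟨[b], by simpa using hb, by simp⟩
  | one => exact ⟨[], by simp, by simp⟩
  | mul x y _ _ hx hy =>
    obtain ⟨l, hl, rfl⟩ := hx
    obtain ⟨m, hm, rfl⟩ := hy
    exact ⟨l ++ m, by simpa [or_imp, forall_and] using ⟨hl, hm⟩, by simp⟩
  | inv x _ hx =>
    obtain ⟨l, hl, rfl⟩ := hx
    refine ⟨l.reverse, by simpa using hl, ?_⟩
    clear * - hl
    induction l with
    | nil => simp
    | cons b l ih =>
      simp only [List.forall_mem_cons] at hl
      have := ih hl.2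
      rw [List.map_reverse] at this
      simp [this, S.el_inv hl.1, mul_inv_rev]

/-- A clopen neighbourhood and a word deciding where a point sits relative to a box. -/
theorem locate (c : Box Y Q) (y : Y) (a : List Bool) (s : ℕ → Bool) :
    ∃ (W : Clopens Y) (n : ℕ), y ∈ W ∧ ∀ W' ≤ W, ∀ r, stake n s <+: r →
      (W' ≤ c.U ∧ c.p <+: a ++ r) ∨ (W' ≤ smulC c.g c.U ∧ c.q <+: a ++ r) ∨
        Disjoint (cyl (W' : Set Y) (a ++ r)) c.supp := by
  classical
  have key : ∀ (U : Clopens Y) (p : List Bool), ∃ (W : Clopens Y), y ∈ W ∧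
      ∀ W' ≤ W, ∀ r, stake p.length s <+: r →
        (W' ≤ U ∧ p <+: a ++ r) ∨ Disjoint (cyl (W' : Set Y) (a ++ r)) (cyl (U : Set Y) p) := by
    intro U p
    by_cases hy : y ∈ U
    · refine ⟨U, hy, fun W' hW' r hr => ?_⟩
      have hl : p.length ≤ (a ++ r).length := by
        have := hr.length_le
        simp only [length_stake] at this
        simp; omega
      by_cases hp : p <+: a ++ r
      · exact Or.inl ⟨hW', hp⟩
      · refine Or.inr (disjoint_cyl_word (fun h => hp ?_) hp _ _)
        rw [h.eq_of_length_le hl]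
    · exact ⟨Uᶜ, hy, fun W' hW' r _ => Or.inr (disjoint_cyl_base
        (Set.disjoint_left.2 fun w h1 h2 => (hW' h1) h2) _ _)⟩
  obtain ⟨W1, h1, k1⟩ := key c.U c.p
  obtain ⟨W2, h2, k2⟩ := key (smulC c.g c.U) c.q
  refine ⟨W1 ⊓ W2, max c.p.length c.q.length, ⟨h1, h2⟩, fun W' hW' r hr => ?_⟩
  have sh : ∀ m ≤ max c.p.length c.q.length,
      stake m s <+: stake (max c.p.length c.q.length) s := fun m hm =>
    exists_app (by simpa using hm) (app_stake m s).symm
  rcases k1 W' (hW'.trans inf_le_left) r ((sh _ (le_max_left _ _)).trans hr) with h | h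
  · exact Or.inl h
  rcases k2 W' (hW'.trans inf_le_right) r ((sh _ (le_max_right _ _)).trans hr) with h' | h'
  · exact Or.inr (Or.inl h')
  · exact Or.inr (Or.inr (Set.disjoint_union_right.2 ⟨h, h'⟩))

omit [ContinuousConstSMul Q Y] in
theorem maps_of_fix {f : Pt Y → Pt Y} {U : Clopens Y} {p : List Bool}
    (h : ∀ z ∈ cyl (U : Set Y) p, f z = z) : Maps f U p (1 : Q) p := fun y hy s => by
  rw [h _ (mk_mem_cyl hy s), one_smul]

/-- Every element acts by an affine map near every point. -/
theorem affine (x : G) (y : Y) (s : ℕ → Bool) :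
    ∃ (U : Clopens Y) (n : ℕ) (g : Q) (q : List Bool),
      y ∈ U ∧ Maps (S.toPerm x) U (stake n s) g q := by
  obtain ⟨l, hl, rfl⟩ := S.exists_word x
  induction l with
  | nil => exact ⟨⊤, 0, 1, [], trivial, by simpa [stake] using maps_id (Q := Q) ⊤ ([] : List Bool)⟩
  | cons b l ih =>
    simp only [List.forall_mem_cons] at hl
    obtain ⟨U, n, g, q, hy, hM⟩ := ih hl.2
    obtain ⟨W, k, hW, hloc⟩ := locate b (g • y) q (sdrop n s)
    have hfe : (S.toPerm (S.el b) : Pt Y → Pt Y) = b.move := funext (S.toPerm_el b hl.1)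
    have hW' : smulC g (U ⊓ smulC g⁻¹ W) ≤ W := by
      intro w hw
      simpa [smulC_inf, smulC_smulC] using hw.2
    have hdeep : stake n s ++ stake k (sdrop n s) = stake (n + k) s := by
      have h1 : s = app (stake n s ++ stake k (sdrop n s)) (sdrop k (sdrop n s)) := by
        rw [app_append, app_stake, app_stake]
      have h2 := stake_app (stake n s ++ stake k (sdrop n s)) (sdrop k (sdrop n s))
      rw [← h1, List.length_append, length_stake, length_stake] at h2
      exact h2.symm
    have hM' : Maps (S.toPerm (l.map S.el).prod) (U ⊓ smulC g⁻¹ W) (stake (n + k) s) g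
        (q ++ stake k (sdrop n s)) := hdeep ▸ hM.mono inf_le_left _
    have hy' : y ∈ U ⊓ smulC g⁻¹ W := ⟨hy, by simpa using hW⟩
    rcases hloc _ hW' _ (List.prefix_refl (stake k (sdrop n s))) with
      ⟨hV, r, hr⟩ | ⟨hV, r, hr⟩ | hd
    · refine ⟨_, n + k, b.g * g, b.q ++ r, hy', ?_⟩
      rw [List.map_cons, List.prod_cons, map_mul, Equiv.Perm.coe_mul, hfe]
      exact hM'.comp (hr ▸ (maps_move b).mono hV r)
    · refine ⟨_, n + k, b.g⁻¹ * g, b.p ++ r, hy', ?_⟩
      rw [List.map_cons, List.prod_cons, map_mul, Equiv.Perm.coe_mul, hfe]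
      exact hM'.comp (hr ▸ (maps_move_flip hl.1).mono hV r)
    · refine ⟨_, n + k, 1 * g, q ++ stake k (sdrop n s), hy', ?_⟩
      rw [List.map_cons, List.prod_cons, map_mul, Equiv.Perm.coe_mul, hfe]
      exact hM'.comp (maps_of_fix fun z hz => Box.move_out (Set.disjoint_left.1 hd hz))

end BoxSystem

end Vale.Agent.P193.Fp
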